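import Vale.Agent.P370Z.KIT.Struct

/-!
# P370, circuit Hamiltonian: the penalty for two particles in one block
-/

namespace Vale.Agent.P370Z.KITB

open Finset KIT

noncomputable section

theorem sum_range_two (a m : ℕ) (f : ℕ → ℝ) :
    ∑ k ∈ range (a + 2 * m), f k =
      ∑ k ∈ range a, f k + ∑ q ∈ range m, (f (a + 2 * q + 0) + f (a + 2 * q + 1)) := by
  induction m with
  | zero => simp
  | succ m ih =>
    rw [show a + 2 * (m + 1) = a + 2 * m + 1 + 1 by ring, sum_range_succ, sum_range_succ, ih,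
      sum_range_succ]
    simp only [add_zero]
    ring

/-- extension by zero -/
def ex2 {N : ℕ} (c : Fin N → Fin N → ℝ) (k k' : ℕ) : ℝ :=
  if h : k < N ∧ k' < N then c ⟨k, h.1⟩ ⟨k', h.2⟩ else 0

theorem sum_one_one {N : ℕ} (c : Fin N → Fin N → ℝ) (s s' : ℕ) :
    ∑ k : Fin N, ∑ k' : Fin N, (((SV.one s 1).val k : ℤ) : ℝ) * (((SV.one s' 1).val k' : ℤ) : ℝ) *
      c k k' = ex2 c s s' := by
  simp only [val_one]
  unfold ex2
  split_ifs with h
  · rw [sum_eq_single ⟨s, h.1⟩, sum_eq_single ⟨s', h.2⟩]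
    · simp
    · intro b _ hb
      have : (b : ℕ) ≠ s' := fun e => hb (Fin.ext e)
      simp [this]
    · simp
    · intro b _ hb
      have : (b : ℕ) ≠ s := fun e => hb (Fin.ext e)
      simp [this]
    · simp
  · refine sum_eq_zero fun k _ => sum_eq_zero fun k' _ => ?_
    by_cases h1 : (k : ℕ) = s
    · have h2 : (k' : ℕ) ≠ s' := fun e => h ⟨h1 ▸ k.2, e ▸ k'.2⟩
      simp [h2]
    · simp [h1]

theorem sum_ex2 {N : ℕ} (c : Fin N → Fin N → ℝ) :
    ∑ k, ∑ k', c k k' ^ 2 = ∑ k ∈ range N, ∑ k' ∈ range N, ex2 c k k' ^ 2 := by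
  rw [← Fin.sum_univ_eq_sum_range (fun k => ∑ k' ∈ range N, ex2 c k k' ^ 2)]
  refine sum_congr rfl fun k _ => ?_
  rw [← Fin.sum_univ_eq_sum_range (fun k' => ex2 c k k' ^ 2)]
  refine sum_congr rfl fun k' _ => ?_
  simp [ex2]

theorem blkF_val (d : CD) (k : Fin d.nD) : (d.blkF k : ℕ) = d.blk k := by
  have h := k.2
  have : d.blk k < d.nq + 1 := by
    unfold CD.blk
    unfold CD.nD at h
    split_ifs <;> omega
  simp [CD.blkF, Fin.ofNat, Nat.mod_eq_of_lt this]

theorem pen_sum (d : CD) (g : ℕ → ℕ → ℝ) (h : ∀ k k', d.blk k ≠ d.blk k' → g k k' = 0) :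
    ∑ k ∈ range d.nD, ∑ k' ∈ range d.nD, g k k' =
      ∑ s ∈ range d.dC, ∑ s' ∈ range d.dC, g s s' +
      ∑ q ∈ range d.nq, (g (d.qi q 0) (d.qi q 0) + (g (d.qi q 0) (d.qi q 1) +
        (g (d.qi q 1) (d.qi q 0) + g (d.qi q 1) (d.qi q 1)))) := by
  have h1 : ∀ s < d.dC, ∑ k' ∈ range d.nD, g s k' = ∑ s' ∈ range d.dC, g s s' := by
    intro s hs
    unfold CD.nD
    rw [sum_range_two, add_eq_left]
    refine sum_eq_zero fun q _ => ?_
    have e0 := h s (d.qi q 0) (by rw [blk_clock d hs, blk_qi d q (by omega)]; omega)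
    have e1 := h s (d.qi q 1) (by rw [blk_clock d hs, blk_qi d q (by omega)]; omega)
    unfold CD.qi at e0 e1
    rw [e0, e1, add_zero]
  have h2 : ∀ q < d.nq, ∀ b < 2, ∑ k' ∈ range d.nD, g (d.qi q b) k' =
      g (d.qi q b) (d.qi q 0) + g (d.qi q b) (d.qi q 1) := by
    intro q hq b hb
    unfold CD.nD
    rw [sum_range_two, sum_eq_zero, zero_add, sum_eq_single q]
    · rfl
    · intro q' _ hq'
      have e0 := h (d.qi q b) (d.qi q' 0)
        (by rw [blk_qi d q hb, blk_qi d q' (by omega)]; omega)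
      have e1 := h (d.qi q b) (d.qi q' 1)
        (by rw [blk_qi d q hb, blk_qi d q' (by omega)]; omega)
      change g (d.qi q b) (d.qi q' 0) + g (d.qi q b) (d.qi q' 1) = 0
      rw [e0, e1, add_zero]
    · intro hn
      exact absurd (mem_range.2 hq) hn
    · intro s hs
      exact h _ _ (by rw [blk_clock d (mem_range.1 hs), blk_qi d q hb]; omega)
  nth_rewrite 1 [CD.nD]
  rw [sum_range_two]
  congr 1
  · exact sum_congr rfl fun s hs => h1 s (mem_range.1 hs)
  · refine sum_congr rfl fun q hq => ?_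
    have e0 := h2 q (mem_range.1 hq) 0 (by omega)
    have e1 := h2 q (mem_range.1 hq) 1 (by omega)
    change ∑ k' ∈ range d.nD, g (d.qi q 0) k' + ∑ k' ∈ range d.nD, g (d.qi q 1) k' = _
    rw [e0, e1]
    ring

theorem pen (d : CD) (β : Fin (d.nq + 1)) (c : Fin d.nD → Fin d.nD → ℝ)
    (hc : ∀ k k', c k k' ≠ 0 → d.blkF k = β ∧ d.blkF k' = β) :
    1 / (d.nu : ℝ) ^ 2 * ∑ k, ∑ k', c k k' ^ 2 ≤
      ∑ e, (∑ k, ∑ k', d.UF e k * d.WF e k' * c k k') ^ 2 := by
  obtain ⟨f, hf⟩ : ∃ f : SV × SV → ℝ, ∀ p, f p = (∑ k : Fin d.nD, ∑ k' : Fin d.nD,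
    ((p.1.val k : ℤ) : ℝ) * ((p.2.val k' : ℤ) : ℝ) * c k k') ^ 2 := ⟨_, fun _ => rfl⟩
  have hf0 : ∀ p, 0 ≤ f p := fun p => (hf p).symm ▸ sq_nonneg _
  have hn0 : (d.nu0 : ℝ) ≠ 0 := by have := nu0_pos d; positivity
  have h1 : ∑ e, (∑ k, ∑ k', d.UF e k * d.WF e k' * c k k') ^ 2 =
      1 / (d.nu : ℝ) ^ 2 * ∑ e : Fin d.nE, f (d.terms.getD e (SV.zero, SV.zero)) := by
    rw [mul_sum]
    refine sum_congr rfl fun e _ => ?_
    rw [hf, one_div, ← inv_pow, ← mul_pow, mul_sum]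
    refine congrArg (· ^ 2) (sum_congr rfl fun k _ => ?_)
    rw [mul_sum]
    refine sum_congr rfl fun k' _ => ?_
    rw [UF_eq, WF_eq, nu_cast]
    field_simp
  rw [h1]
  refine mul_le_mul_of_nonneg_left ?_ (div_nonneg zero_le_one (sq_nonneg _))
  have hl : ∀ l : List (SV × SV), 0 ≤ (l.map f).sum := fun l =>
    List.sum_nonneg fun x hx => by
      obtain ⟨p, -, rfl⟩ := List.mem_map.1 hx
      exact hf0 p
  have h2 : (d.base.map f).sum ≤ ∑ e : Fin d.nE, f (d.terms.getD e (SV.zero, SV.zero)) := by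
    refine le_trans ?_ (sum_getD d.terms (SV.zero, SV.zero) f).ge
    simp only [CD.terms, List.map_append, List.sum_append]
    linarith [hl (d.base.map fun c => (c.1.partner, SV.zero)),
      hl (d.base.map fun c => (SV.zero, c.2.partner)),
      hl ((List.range d.nD).flatMap fun k =>
        List.replicate (d.nu - d.diagU k) (SV.one k 1, SV.zero)),
      hl ((List.range d.nD).flatMap fun k =>
        List.replicate (d.nu - d.diagW k) (SV.zero, SV.one k 1))]
  refine le_trans ?_ h2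
  have h3 : ∀ s s', f (SV.one s 1, SV.one s' 1) = ex2 c s s' ^ 2 := fun s s' =>
    (hf _).trans (congrArg (· ^ 2) (sum_one_one c s s'))
  rw [sum_ex2, pen_sum d (fun k k' => ex2 c k k' ^ 2)]
  · unfold CD.base
    simp only [List.map_append, List.sum_append]
    have e1 := hl ((List.range d.nT).flatMap fun t =>
      d.stepTerms t (d.steps.getD t (0, 0, 0, 0)))
    have e2 := hl ((List.range d.2.1.v).map fun j =>
      (SV.one 0 d.JJ, SV.one (d.qi (d.w + j) 1) 1))
    have e3 := hl [(SV.one (5 * d.nT) 1, SV.one (d.qi d.out 0) 1)]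
    rw [sum_flatMap (List.range d.dC), sum_flatMap (List.range d.nq), sum_range_list,
      sum_range_list]
    simp only [List.map_map, Function.comp_def, sum_range_list, List.map_cons, List.map_nil,
      List.sum_cons, List.sum_nil, h3, add_zero] at e1 e2 e3 ⊢
    linarith
  · intro k k' hk
    unfold ex2
    split_ifs with h
    · by_contra h0
      have h4 := hc _ _ fun e => h0 (by rw [e]; ring)
      have h5 := congrArg Fin.val (h4.1.trans h4.2.symm)
      rw [blkF_val, blkF_val] at h5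
      exact hk h5
    · ring

end

end Vale.Agent.P370Z.KITB
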