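import Vale.Agent.P370Z.KIT.Real
import Vale.Agent.P370Z.KIT.Pen

/-!
# P370, circuit Hamiltonian: the lower bound
-/

namespace Vale.Agent.P370Z

open Finset

noncomputable section

namespace KITB

open KIT

variable {n : ℕ}

theorem nr_le_add (u v : RV n) : nr u ≤ nr v + nr (u - v) := by
  have := nr_add_le v (u - v)
  rwa [add_sub_cancel] at this

/-- the constraints of one step of the clock hold up to `x` -/
structure StepOK (x : ℝ) (c tg : Fin n) (M0 M1 : Bool → Bool → ℝ) (p0 p1 p2 p3 p4 p5 : RV n) :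
    Prop where
  a1 : nr (proj c false (p0 - p1)) ≤ x
  a2 : nr (proj c false (p2 - p5)) ≤ x
  a3 : nr (proj c true (p0 - p3)) ≤ x
  a4 : nr (proj c true (p4 - p5)) ≤ x
  b1 : nr (proj c true p1) ≤ x
  b2 : nr (proj c true p2) ≤ x
  b3 : nr (proj c false p3) ≤ x
  b4 : nr (proj c false p4) ≤ x
  g0 : nr (app1 tg M0 p1 - p2) ≤ x
  g1 : nr (app1 tg M1 p3 - p4) ≤ x

section Step

variable {x : ℝ} {c tg : Fin n} {M0 M1 : Bool → Bool → ℝ} {p0 p1 p2 p3 p4 p5 : RV n}

theorem half {M : Bool → Bool → ℝ} {b : Bool} (h : c ≠ tg) (hM : Orth 1 M)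
    (a1 : nr (proj c b (p0 - p1)) ≤ x) (a2 : nr (proj c b (p2 - p5)) ≤ x)
    (g0 : nr (app1 tg M p1 - p2) ≤ x) : nr (app1 tg M (proj c b p0) - proj c b p5) ≤ 3 * x := by
  have e1 : nr (app1 tg M (proj c b p0) - app1 tg M (proj c b p1)) ≤ x := by
    rw [← app1_sub, ← proj_sub, nr, ns_app1 _ hM, one_mul]
    exact a1
  have e2 : nr (app1 tg M (proj c b p1) - proj c b p2) ≤ x := by
    rw [← proj_app1 h, ← proj_sub]
    exact (nr_proj_le _ _ _).trans g0
  rw [proj_sub] at a2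
  have t1 := nr_tri (app1 tg M (proj c b p0)) (app1 tg M (proj c b p1)) (proj c b p5)
  have t2 := nr_tri (app1 tg M (proj c b p1)) (proj c b p2) (proj c b p5)
  linarith

theorem StepOK.step (H : StepOK x c tg M0 M1 p0 p1 p2 p3 p4 p5) (h : c ≠ tg) (h0 : Orth 1 M0)
    (h1 : Orth 1 M1) : nr (p5 - stepR c tg M0 M1 p0) ≤ 6 * x := by
  have e0 := half h h0 H.a1 H.a2 H.g0
  have e1 := half h h1 H.a3 H.a4 H.g1
  have e : stepR c tg M0 M1 p0 - p5 = (app1 tg M0 (proj c false p0) - proj c false p5) +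
      (app1 tg M1 (proj c true p0) - proj c true p5) := by
    nth_rewrite 1 [← proj_add_proj c p5]
    unfold stepR
    abel
  rw [nr_sub_comm, e]
  have := nr_add_le (app1 tg M0 (proj c false p0) - proj c false p5)
    (app1 tg M1 (proj c true p0) - proj c true p5)
  linarith

theorem pair {u v w : RV n} {B : ℝ} (hB : nr w + 3 * x ≤ B)
    (a1 : nr (proj c false (w - u)) ≤ x) (a3 : nr (proj c true (w - v)) ≤ x)
    (b1 : nr (proj c true u) ≤ x) (b3 : nr (proj c false v) ≤ x) :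
    ns u + ns v ≤ B ^ 2 := by
  have hx : 0 ≤ x := (nr_nonneg _).trans a1
  rw [proj_sub, nr_sub_comm] at a1 a3
  have e1 := nr_le_add (proj c false u) (proj c false w)
  have e2 := nr_le_add (proj c true v) (proj c true w)
  have e3 := nr_add_le (proj c false u) (proj c true u)
  have e4 := nr_add_le (proj c false v) (proj c true v)
  rw [proj_add_proj] at e3 e4
  have e5 := ns_proj c w
  rw [← nr_sq, ← nr_sq, ← nr_sq] at e5
  have g1 : ns u ≤ (nr (proj c false w) + 2 * x) ^ 2 := ns_le_of_nr_le (by linarith)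
  have g2 : ns v ≤ (nr (proj c true w) + 2 * x) ^ 2 := ns_le_of_nr_le (by linarith)
  have n3 := nr_nonneg w
  have n4 := nr_nonneg (proj c false w)
  have n5 := nr_nonneg (proj c true w)
  generalize nr (proj c false w) = A at *
  generalize nr (proj c true w) = C at *
  generalize nr w = W at *
  have g3 := pow_le_pow_left₀ (by positivity) hB 2
  have g4 : A + C ≤ 3 / 2 * W := by
    refine le_of_sq_le_sq (by nlinarith [sq_nonneg (A - C)]) (by positivity)
  nlinarith [mul_le_mul_of_nonneg_left g4 hx, sq_nonneg x]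

theorem StepOK.mid (H : StepOK x c tg M0 M1 p0 p1 p2 p3 p4 p5) {B : ℝ} (h0 : nr p0 + 3 * x ≤ B)
    (h5 : nr p5 + 3 * x ≤ B) : ns p0 + ns p1 + ns p2 + ns p3 + ns p4 ≤ 3 * B ^ 2 := by
  have hx : 0 ≤ x := (nr_nonneg _).trans H.a1
  have e1 := pair h0 H.a1 H.a3 H.b1 H.b3
  have a2 := H.a2
  have a4 := H.a4
  rw [proj_sub, nr_sub_comm, ← proj_sub] at a2 a4
  have e2 := pair h5 a2 a4 H.b2 H.b4
  have e3 : ns p0 ≤ B ^ 2 := ns_le_of_nr_le (by linarith)
  linarith

end Step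

theorem stepE_nonneg (d : CD) (A : ℕ → RV d.nq) (t : ℕ) (st : ℕ × ℕ × ℕ × ℕ) :
    0 ≤ stepE d A t st := by
  have h0 := one_le_gN d st.2.2.1
  have h1 := one_le_gN d st.2.2.2
  unfold stepE
  refine add_nonneg (add_nonneg ?_ (mul_nonneg (by linarith) (ns_nonneg _)))
    (mul_nonneg (by linarith) (ns_nonneg _))
  repeat' refine add_nonneg ?_ ?_
  all_goals exact ns_nonneg _

theorem stepOK (d : CD) (A : ℕ → RV d.nq) (t : ℕ) (st : ℕ × ℕ × ℕ × ℕ) {x : ℝ} (hx : 0 ≤ x)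
    (h : stepE d A t st ≤ x ^ 2) :
    StepOK x (fq d st.1) (fq d st.2.1) (gm d st.2.2.1) (gm d st.2.2.2) (A (5 * t)) (A (5 * t + 1))
      (A (5 * t + 2)) (A (5 * t + 3)) (A (5 * t + 4)) (A (5 * t + 5)) := by
  unfold stepE at h
  have n1 := ns_nonneg (proj (fq d st.1) false (A (5 * t) - A (5 * t + 1)))
  have n2 := ns_nonneg (proj (fq d st.1) false (A (5 * t + 2) - A (5 * t + 5)))
  have n3 := ns_nonneg (proj (fq d st.1) true (A (5 * t) - A (5 * t + 3)))
  have n4 := ns_nonneg (proj (fq d st.1) true (A (5 * t + 4) - A (5 * t + 5)))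
  have n5 := ns_nonneg (proj (fq d st.1) true (A (5 * t + 1)))
  have n6 := ns_nonneg (proj (fq d st.1) true (A (5 * t + 2)))
  have n7 := ns_nonneg (proj (fq d st.1) false (A (5 * t + 3)))
  have n8 := ns_nonneg (proj (fq d st.1) false (A (5 * t + 4)))
  have n9 := ns_nonneg (app1 (fq d st.2.1) (gm d st.2.2.1) (A (5 * t + 1)) - A (5 * t + 2))
  have n10 := ns_nonneg (app1 (fq d st.2.1) (gm d st.2.2.2) (A (5 * t + 3)) - A (5 * t + 4))
  have m9 := le_mul_of_one_le_left n9 (one_le_gN d st.2.2.1)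
  have m10 := le_mul_of_one_le_left n10 (one_le_gN d st.2.2.2)
  constructor <;> exact nr_le_of_ns_le hx (by linarith)

theorem act_smul {m : ℕ} (g : Gate m) (a : ℂ) (φ : QVec m) : g.act (a • φ) = a • g.act φ := by
  funext y
  cases g <;> simp only [Gate.act, Pi.smul_apply, smul_eq_mul]
  · ring
  · ring

theorem runGates_smul {m : ℕ} (l : List (Gate m)) (a : ℂ) (φ : QVec m) :
    runGates l (a • φ) = a • runGates l φ := by
  induction l generalizing φ with
  | nil => rfl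
  | cons g l ih => rw [runGates, act_smul, ih, runGates]

theorem accept_smul (V : Verifier) (a : ℂ) (φ : QVec V.w) :
    V.accept (a • φ) = ‖a‖ ^ 2 * V.accept φ := by
  have h : V.input (a • φ) = a • V.input φ := by
    funext y
    simp only [Verifier.input, Pi.smul_apply, smul_eq_mul]
    split_ifs <;> simp
  unfold Verifier.accept
  rw [h, runGates_smul, mul_sum]
  refine sum_congr rfl fun y _ => ?_
  split_ifs
  · rw [Pi.smul_apply, smul_eq_mul, norm_mul, mul_pow]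
  · simp

theorem accept_le (V : Verifier) (h : ∀ ψ, IsUnitVec ψ → V.accept ψ ≤ 1 / 3) (φ : QVec V.w) :
    V.accept φ ≤ 1 / 3 * ∑ y, ‖φ y‖ ^ 2 := by
  obtain ⟨N, hN⟩ : ∃ N : ℝ, N = ∑ y, ‖φ y‖ ^ 2 := ⟨_, rfl⟩
  have hN0 : 0 ≤ N := hN ▸ sum_nonneg fun _ _ => sq_nonneg _
  rw [← hN]
  rcases hN0.eq_or_lt with h0 | h0
  · have h1 : φ = (0 : ℂ) • φ := by
      funext y
      have := (sum_eq_zero_iff_of_nonneg fun y _ => sq_nonneg ‖φ y‖).1 (hN.symm.trans h0.symm) y
        (mem_univ y)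
      simpa using this
    rw [h1, accept_smul, ← h0]
    simp
  · have hs : ‖(((√N)⁻¹ : ℝ) : ℂ)‖ ^ 2 = N⁻¹ := by
      rw [Complex.norm_real, Real.norm_eq_abs, sq_abs, inv_pow, Real.sq_sqrt hN0]
    have h1 := h ((((√N)⁻¹ : ℝ) : ℂ) • φ) (by
      unfold IsUnitVec
      simp only [Pi.smul_apply, smul_eq_mul, norm_mul, mul_pow, hs]
      rw [← mul_sum, ← hN, inv_mul_cancel₀ h0.ne'])
    rw [accept_smul, hs, inv_mul_le_iff₀ h0] at h1
    linarith

theorem exists_good (a : ℕ) (q : ℕ → Fin n) (Φ : RV n) :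
    ∃ G : RV n, (∀ j < a, proj (q j) true G = 0) ∧
      ns (Φ - G) ≤ ∑ j ∈ range a, ns (proj (q j) true Φ) := by
  classical
  refine ⟨fun y => if ∀ j < a, y (q j) = false then Φ y else 0, fun j hj => ?_, ?_⟩
  · funext y
    simp only [proj, Pi.zero_apply]
    split_ifs with h1 h2
    · rw [h2 j hj] at h1
      exact absurd h1 (by simp)
    · rfl
    · rfl
  · unfold ns
    rw [sum_comm]
    refine sum_le_sum fun y _ => ?_
    simp only [Pi.sub_apply]
    split_ifs with h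
    · rw [sub_self, sq, mul_zero]
      exact sum_nonneg fun _ _ => sq_nonneg _
    · push Not at h
      obtain ⟨j, hj, hy⟩ := h
      refine le_trans ?_ (single_le_sum (f := fun j => proj (q j) true Φ y ^ 2)
        (fun _ _ => sq_nonneg _) (mem_range.2 hj))
      have : y (q j) = true := by simpa using hy
      simp [proj, this]

theorem low_amp (V : Verifier) (h : ∀ ψ, IsUnitVec ψ → V.accept ψ ≤ 1 / 3)
    (A : ℕ → RV V.cd.nq) :
    3 / 5 * ∑ s ∈ range V.cd.dC, ns (A s) ≤ (3 * V.cd.nT + 1) * Etot V.cd A := by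
  have hw := wf_cd V
  obtain ⟨G, hG, hbad⟩ := exists_good V.a (fun j => fq V.cd (V.cd.w + j)) (A 0)
  obtain ⟨φ, rfl⟩ := exists_witness V G hG
  have hacc := accept_le V h φ
  rw [← ns_input, ← out_eq] at hacc
  have hsim := sim V (V.input φ)
  have hrn := ns_runGates V (V.input φ)
  have ha : V.a = V.cd.2.1.v := rfl
  rw [ha] at hbad
  generalize rl V (runGates V.gates (V.input φ)) = R at hacc hsim hrn
  generalize rl V (V.input φ) = G at hacc hsim hrn hbad
  clear hG ha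
  generalize V.cd = d at *
  have hJ : (d.JJ : ℝ) = 1000 * (d.nT + 1) := by simp [CD.JJ]
  have hJ0 : (0 : ℝ) < d.JJ := by rw [hJ]; positivity
  have s1 : 0 ≤ ∑ t ∈ range d.nT, stepE d A t (d.steps.getD t (0, 0, 0, 0)) :=
    sum_nonneg fun _ _ => stepE_nonneg _ _ _ _
  have s2 : 0 ≤ ∑ j ∈ range d.2.1.v, ns (proj (fq d (d.w + j)) true (A 0)) :=
    sum_nonneg fun _ _ => ns_nonneg _
  have s3 := ns_nonneg (proj (fq d d.out) false (A (5 * d.nT)))
  have s4 := mul_nonneg (sq_nonneg (d.JJ : ℝ)) s1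
  have s5 := mul_nonneg (sq_nonneg (d.JJ : ℝ)) s2
  have hE : Etot d A = _ := rfl
  unfold Etot at hE
  obtain ⟨e, he0, he⟩ : ∃ e : ℝ, 0 ≤ e ∧ e ^ 2 = Etot d A :=
    ⟨√(Etot d A), Real.sqrt_nonneg _, Real.sq_sqrt (by unfold Etot; linarith)⟩
  obtain ⟨x, hx0, hx⟩ : ∃ x : ℝ, 0 ≤ x ∧ d.JJ * x = e :=
    ⟨e / d.JJ, div_nonneg he0 hJ0.le, mul_div_cancel₀ _ hJ0.ne'⟩
  have hxx : (d.JJ : ℝ) ^ 2 * x ^ 2 = Etot d A := by rw [← he, ← hx]; ring
  have hJ2 : (0 : ℝ) < (d.JJ : ℝ) ^ 2 := pow_pos hJ0 2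
  have t1 : ∑ t ∈ range d.nT, stepE d A t (d.steps.getD t (0, 0, 0, 0)) ≤ x ^ 2 := by
    refine le_of_mul_le_mul_left ?_ hJ2
    rw [hxx]; unfold Etot; linarith
  have t2 : nr (A 0 - G) ≤ x := by
    refine nr_le_of_ns_le hx0 (hbad.trans (le_of_mul_le_mul_left ?_ hJ2))
    rw [hxx]; unfold Etot; linarith
  have t3 : nr (proj (fq d d.out) false (A (5 * d.nT))) ≤ e := by
    refine nr_le_of_ns_le he0 ?_
    rw [he]; unfold Etot; linarith
  have hst := fun t (ht : t < d.nT) => stepOK d A t (d.steps.getD t (0, 0, 0, 0)) hx0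
    ((single_le_sum (f := fun t => stepE d A t (d.steps.getD t (0, 0, 0, 0)))
      (fun _ _ => stepE_nonneg _ _ _ _) (mem_range.2 ht)).trans t1)
  have hch : ∀ t ≤ d.nT, nr (A (5 * t) - runA d t G) ≤ (6 * t + 1) * x := by
    intro t
    induction t with
    | zero => intro _; simpa [runA] using t2
    | succ t ih =>
      intro ht
      have h1 := ih (by omega)
      have h2 : nr (A (5 * (t + 1)) - stepA d (d.steps.getD t (0, 0, 0, 0)) (A (5 * t))) ≤ 6 * x :=
        (hst t ht).step (hw.fq_ne ht) (orth_gm _ _) (orth_gm _ _)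
      have h3 := nr_tri (A (5 * (t + 1))) (stepA d (d.steps.getD t (0, 0, 0, 0)) (A (5 * t)))
        (runA d (t + 1) G)
      rw [runA, ← stepA_sub, nr_stepA hw ht] at h3
      rw [runA]
      push_cast
      linarith
  have hX : (6 * d.nT + 6) * x = 6 / 1000 * e := by rw [← hx, hJ]; ring
  have hB : ∀ t ≤ d.nT, nr (A (5 * t)) + 3 * x ≤ nr G + 6 / 1000 * e := by
    intro t ht
    have h1 := hch t ht
    have h2 := nr_le_add (A (5 * t)) (runA d t G)
    rw [nr_runA hw ht] at h2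
    have h3 : (t : ℝ) ≤ d.nT := by exact_mod_cast ht
    have h4 := mul_le_mul_of_nonneg_right h3 hx0
    linarith
  have hg0 := nr_nonneg G
  have h1 := ns_proj (fq d d.out) R
  have h2 : 816 / 1000 * nr G ≤ nr (proj (fq d d.out) false R) := by
    refine le_of_sq_le_sq ?_ (nr_nonneg _)
    rw [mul_pow, nr_sq, nr_sq]
    linarith [ns_nonneg G]
  have h3 := nr_le_add (proj (fq d d.out) false R) (proj (fq d d.out) false (A (5 * d.nT)))
  rw [← proj_sub] at h3
  have h4 := nr_proj_le (fq d d.out) false (R - A (5 * d.nT))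
  have h5 := nr_tri (A (5 * d.nT)) (runA d d.nT G) R
  rw [nr_sub_comm] at h5
  have h6 := hch d.nT le_rfl
  have h7 : nr G + 6 / 1000 * e ≤ 128 / 100 * e := by linarith
  have h9 := pow_le_pow_left₀ (by linarith) h7 2
  have h8 : ∑ s ∈ range d.dC, ns (A s) ≤ (3 * d.nT + 1) * (nr G + 6 / 1000 * e) ^ 2 := by
    unfold CD.dC
    rw [sum_clock]
    have k1 := sum_le_card_nsmul (range d.nT) _ _
      fun t ht => (hst t (mem_range.1 ht)).mid (hB t (mem_range.1 ht).le)
        (hB (t + 1) (mem_range.1 ht))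
    rw [card_range, nsmul_eq_mul] at k1
    have k2 : ns (A (5 * d.nT)) ≤ (nr G + 6 / 1000 * e) ^ 2 :=
      ns_le_of_nr_le (by have := hB d.nT le_rfl; linarith)
    linarith
  have h0 : (0 : ℝ) ≤ 3 * d.nT + 1 := by have := Nat.cast_nonneg (α := ℝ) d.nT; linarith
  have h10 := mul_le_mul_of_nonneg_left h9 h0
  have h11 := mul_nonneg h0 (sq_nonneg e)
  rw [← he]
  nlinarith

end KITB

theorem kit_low (V : Verifier) (h : ∀ ψ, IsUnitVec ψ → V.accept ψ ≤ 1 / 3) :
    KitLow V.cd.blkF V.cd.UF V.cd.WF (3 / 5 / ((3 * V.cd.nT + 1) * (V.cd.nu : ℝ) ^ 2)) := by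
  have h0 : (1 : ℝ) ≤ 3 * V.cd.nT + 1 := by have := Nat.cast_nonneg (α := ℝ) V.cd.nT; linarith
  have h1 : (0 : ℝ) < (V.cd.nu : ℝ) ^ 2 := pow_pos (KIT.nu_pos _) 2
  constructor
  · intro ψ hψ
    have h2 := KITB.low_amp V h (KIT.amp V.cd ψ)
    rw [KIT.HF_eq (KIT.wf_cd V) hψ, KIT.nsqT_eq hψ, div_mul_eq_mul_div,
      div_le_div_iff₀ (mul_pos (by linarith) h1) h1]
    have h3 := mul_le_mul_of_nonneg_right h2 h1.le
    linarith
  · intro β c hc
    refine le_trans (mul_le_mul_of_nonneg_right ?_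
      (sum_nonneg fun _ _ => sum_nonneg fun _ _ => sq_nonneg _)) (KITB.pen V.cd β c hc)
    rw [div_le_div_iff₀ (mul_pos (by linarith) h1) h1]
    have h3 := mul_le_mul_of_nonneg_right h0 h1.le
    linarith

end

end Vale.Agent.P370Z
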