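import Vale.Agent.P370Z.KIT.Real

/-!
# P370, circuit Hamiltonian: the history state
-/

namespace Vale.Agent.P370Z

open Finset

namespace KIT

noncomputable section

/-- the history state -/
def hist (d : CD) (Φ : RV d.nq) (s : ℕ) : RV d.nq :=
  if s % 5 = 0 then runA d (s / 5) Φ
  else if s % 5 = 1 then
    proj (fq d (d.steps.getD (s / 5) (0, 0, 0, 0)).1) false (runA d (s / 5) Φ)
  else if s % 5 = 2 then
    app1 (fq d (d.steps.getD (s / 5) (0, 0, 0, 0)).2.1)
      (gm d (d.steps.getD (s / 5) (0, 0, 0, 0)).2.2.1)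
      (proj (fq d (d.steps.getD (s / 5) (0, 0, 0, 0)).1) false (runA d (s / 5) Φ))
  else if s % 5 = 3 then
    proj (fq d (d.steps.getD (s / 5) (0, 0, 0, 0)).1) true (runA d (s / 5) Φ)
  else
    app1 (fq d (d.steps.getD (s / 5) (0, 0, 0, 0)).2.1)
      (gm d (d.steps.getD (s / 5) (0, 0, 0, 0)).2.2.2)
      (proj (fq d (d.steps.getD (s / 5) (0, 0, 0, 0)).1) true (runA d (s / 5) Φ))

variable (d : CD) (Φ : RV d.nq) (t : ℕ)

theorem hist0 : hist d Φ (5 * t) = runA d t Φ := by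
  rw [hist, if_pos (by omega), show 5 * t / 5 = t by omega]

theorem hist1 : hist d Φ (5 * t + 1) =
    proj (fq d (d.steps.getD t (0, 0, 0, 0)).1) false (runA d t Φ) := by
  rw [hist, if_neg (by omega), if_pos (by omega), show (5 * t + 1) / 5 = t by omega]

theorem hist2 : hist d Φ (5 * t + 2) =
    app1 (fq d (d.steps.getD t (0, 0, 0, 0)).2.1) (gm d (d.steps.getD t (0, 0, 0, 0)).2.2.1)
      (proj (fq d (d.steps.getD t (0, 0, 0, 0)).1) false (runA d t Φ)) := by
  rw [hist, if_neg (by omega), if_neg (by omega), if_pos (by omega),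
    show (5 * t + 2) / 5 = t by omega]

theorem hist3 : hist d Φ (5 * t + 3) =
    proj (fq d (d.steps.getD t (0, 0, 0, 0)).1) true (runA d t Φ) := by
  rw [hist, if_neg (by omega), if_neg (by omega), if_neg (by omega), if_pos (by omega),
    show (5 * t + 3) / 5 = t by omega]

theorem hist4 : hist d Φ (5 * t + 4) =
    app1 (fq d (d.steps.getD t (0, 0, 0, 0)).2.1) (gm d (d.steps.getD t (0, 0, 0, 0)).2.2.2)
      (proj (fq d (d.steps.getD t (0, 0, 0, 0)).1) true (runA d t Φ)) := by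
  rw [hist, if_neg (by omega), if_neg (by omega), if_neg (by omega), if_neg (by omega),
    show (5 * t + 4) / 5 = t by omega]

theorem hist5 : hist d Φ (5 * t + 5) = stepA d (d.steps.getD t (0, 0, 0, 0)) (runA d t Φ) :=
  hist0 d Φ (t + 1)

variable {d t}

theorem stepE_hist (h : WFd d) (ht : t < d.nT) {A : ℕ → RV d.nq}
    (hA : ∀ s < d.dC, A s = hist d Φ s) : stepE d A t (d.steps.getD t (0, 0, 0, 0)) = 0 := by
  have hd : 5 * t + 5 < d.dC := by unfold CD.dC; omega
  have hne := h.fq_ne ht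
  rw [stepE, hA _ hd, hA (5 * t) (by omega), hA (5 * t + 1) (by omega), hA (5 * t + 2) (by omega),
    hA (5 * t + 3) (by omega), hA (5 * t + 4) (by omega), hist0, hist1, hist2, hist3, hist4, hist5]
  simp only [stepA, stepR, proj_sub, proj_add, proj_app1 hne, proj_proj, proj_ft, proj_tf, sub_self,
    app1_zero, add_zero, zero_add, ns_zero, mul_zero]

theorem ns_hist (h : WFd d) : ∑ s ∈ range d.dC, ns (hist d Φ s) = (3 * d.nT + 1) * ns Φ := by
  rw [CD.dC, sum_clock, hist0, ns_runA h le_rfl, sum_congr rfl (g := fun _ => 3 * ns Φ)]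
  · simp only [sum_const, card_range, nsmul_eq_mul]
    ring
  · intro t ht
    have ht' := mem_range.1 ht
    rw [hist0, hist1, hist2, hist3, hist4, ns_app1 _ (orth_gm _ _), ns_app1 _ (orth_gm _ _)]
    have h1 := ns_proj (fq d (d.steps.getD t (0, 0, 0, 0)).1) (runA d t Φ)
    rw [ns_runA h ht'.le] at h1 ⊢
    linarith

end

end KIT

open KIT in
theorem kit_up (V : Verifier) (ψ : QVec V.w) (h1 : IsUnitVec ψ) (h : 2 / 3 ≤ V.accept ψ) :
    KitUp V.cd.blkF V.cd.UF V.cd.WF (9 / 25 / ((3 * V.cd.nT + 1) * (V.cd.nu : ℝ) ^ 2)) := by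
  have hw := wf_cd V
  set Φ := rl V (V.input ψ) with hΦ
  have hn : ns Φ = 1 := (ns_input V ψ).trans h1
  have hr : nr Φ = 1 := by rw [nr, hn, Real.sqrt_one]
  obtain ⟨χ, hχ, hA⟩ := exists_amp V.cd (hist V.cd Φ)
  have hN : nsqT χ = 3 * V.cd.nT + 1 := by
    rw [nsqT_eq hχ, sum_congr rfl fun s hs => by rw [hA s (mem_range.1 hs)], ns_hist Φ hw, hn,
      mul_one]
  have hpos : (0 : ℝ) < 3 * V.cd.nT + 1 := by positivity
  have hnu := nu_pos V.cd
  refine ⟨χ, hχ, hN ▸ hpos, ?_⟩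
  have hE : Etot V.cd (amp V.cd χ) ≤ 9 / 25 := by
    have e0 : amp V.cd χ 0 = Φ := (hA 0 (Nat.succ_pos _)).trans (hist0 V.cd Φ 0)
    have e1 : amp V.cd χ (5 * V.cd.nT) = runA V.cd V.cd.nT Φ :=
      (hA _ (Nat.lt_succ_self _)).trans (hist0 V.cd Φ _)
    rw [Etot, sum_eq_zero fun t ht => stepE_hist Φ hw (mem_range.1 ht) hA, e0, e1,
      sum_eq_zero fun j hj => by rw [anc_input V ψ (mem_range.1 hj), ns_zero]]
    set X := rl V (runGates V.gates (V.input ψ)) with hX
    have h2 : ns (proj (fq V.cd V.cd.out) false X) ≤ (29 / 50) ^ 2 := by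
      have h3 := ns_proj (fq V.cd V.cd.out) X
      rw [out_eq, hX, ns_runGates, ← hΦ, hn] at h3
      linarith
    have h4 := nr_le_of_ns_le (by norm_num) h2
    have h5 := sim V (V.input ψ)
    rw [← hΦ, ← hX, hr] at h5
    have h6 := (nr_proj_le (fq V.cd V.cd.out) false _).trans h5
    have h7 := nr_add_le (proj (fq V.cd V.cd.out) false (runA V.cd V.cd.nT Φ - X))
      (proj (fq V.cd V.cd.out) false X)
    rw [← proj_add, sub_add_cancel] at h7
    have h8 := ns_le_of_nr_le (h7.trans (add_le_add h6 h4))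
    norm_num at h8 ⊢
    linarith
  rw [HF_eq hw hχ, hN]
  calc Etot V.cd (amp V.cd χ) / (V.cd.nu : ℝ) ^ 2 ≤ 9 / 25 / (V.cd.nu : ℝ) ^ 2 := by gcongr
    _ = _ := by field_simp

end Vale.Agent.P370Z
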