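import Vale.Agent.P370Z.KIT.Struct
import Vale.Agent.P370Z.KIT.Up
import Vale.Agent.P370Z.KIT.Low

/-!
# P370, block KIT: `kit_struct`, `kit_up`, `kit_low`
-/
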