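import Vale.Agent.P370Z.Red

/-!
# P370, circuit Hamiltonian: orthonormal columns and block structure
-/

namespace Vale.Agent.P370Z

open Finset

namespace KIT

theorem sum_getD {α : Type} (l : List α) (a : α) (f : α → ℝ) :
    ∑ e : Fin l.length, f (l.getD e a) = (l.map f).sum := by
  rw [← Fin.sum_univ_fun_getElem]
  refine sum_congr rfl fun e _ => ?_
  simp

theorem sum_flatMap {α β : Type} (l : List α) (g : α → List β) (f : β → ℝ) :
    ((l.flatMap g).map f).sum = (l.map fun a => ((g a).map f).sum).sum := by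
  induction l with
  | nil => simp
  | cons a l ih => simp [List.flatMap_cons, ih]

theorem sum_range_list (n : ℕ) (f : ℕ → ℝ) :
    ((List.range n).map f).sum = ∑ i ∈ range n, f i := by
  induction n with
  | zero => simp
  | succ n ih => rw [List.range_succ, List.map_append, List.sum_append, ih, sum_range_succ]; simp

theorem val_mk (i : ℕ) (c : ℤ) (j : ℕ) (e : ℤ) (k : ℕ) :
    SV.val (i, c, j, e) k = (if k = i then c else 0) + (if k = j then e else 0) := rfl

theorem partner_mk (i : ℕ) (c : ℤ) (j : ℕ) (e : ℤ) :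
    SV.partner (i, c, j, e) = (i, e, j, -c) := rfl

theorem val_zero (k : ℕ) : SV.zero.val k = 0 := by simp [val_mk, SV.zero]

theorem val_one (i : ℕ) (c : ℤ) (k : ℕ) : (SV.one i c).val k = if k = i then c else 0 := by
  simp [val_mk, SV.one]

theorem val_partner {v : SV} {k k' : ℕ} (h : k ≠ k') :
    v.val k * v.val k' + v.partner.val k * v.partner.val k' = 0 := by
  obtain ⟨i, c, j, e⟩ := v
  simp only [val_mk, partner_mk]
  split_ifs <;> first | omega | ring

theorem natAbs_val_le (v : SV) (k : ℕ) : (v.val k).natAbs ≤ v.size := by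
  obtain ⟨i, c, j, e⟩ := v
  simp only [val_mk, SV.size]
  split_ifs <;> omega

theorem size_partner (v : SV) : v.partner.size = v.size := by
  obtain ⟨i, c, j, e⟩ := v
  simp only [SV.partner, SV.size]
  omega

theorem sum_sq_le {α : Type} (l : List α) (f s : α → ℕ) (h : ∀ a, f a ≤ 2 * s a ^ 2) :
    (l.map f).sum ≤ 2 * (l.map s).sum ^ 2 := by
  induction l with
  | nil => simp
  | cons a l ih =>
    simp only [List.map_cons, List.sum_cons]
    have := h a
    nlinarith [Nat.zero_le (s a * (l.map s).sum)]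

theorem diagU_le (d : CD) (k : ℕ) : d.diagU k ≤ d.nu := by
  have h := sum_sq_le d.base
    (fun c => (c.1.val k).natAbs ^ 2 + (c.1.partner.val k).natAbs ^ 2)
    (fun c => c.1.size + c.2.size) (fun c => by
      have h1 := natAbs_val_le c.1 k
      have h2 := natAbs_val_le c.1.partner k
      rw [size_partner] at h2
      have h3 := Nat.pow_le_pow_left (h1.trans (Nat.le_add_right _ c.2.size)) 2
      have h4 := Nat.pow_le_pow_left (h2.trans (Nat.le_add_right _ c.2.size)) 2
      omega)
  unfold CD.diagU CD.nu CD.nu0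
  nlinarith [Nat.zero_le (d.base.map fun c => c.1.size + c.2.size).sum]

theorem diagW_le (d : CD) (k : ℕ) : d.diagW k ≤ d.nu := by
  have h := sum_sq_le d.base
    (fun c => (c.2.val k).natAbs ^ 2 + (c.2.partner.val k).natAbs ^ 2)
    (fun c => c.1.size + c.2.size) (fun c => by
      have h1 := natAbs_val_le c.2 k
      have h2 := natAbs_val_le c.2.partner k
      rw [size_partner] at h2
      have h3 := Nat.pow_le_pow_left (h1.trans (Nat.le_add_left _ c.1.size)) 2
      have h4 := Nat.pow_le_pow_left (h2.trans (Nat.le_add_left _ c.1.size)) 2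
      omega)
  unfold CD.diagW CD.nu CD.nu0
  nlinarith [Nat.zero_le (d.base.map fun c => c.1.size + c.2.size).sum]

theorem nu0_pos (d : CD) : 0 < d.nu0 := Nat.succ_pos _

theorem nu_cast (d : CD) : (d.nu : ℝ) = (d.nu0 : ℝ) ^ 2 := by simp [CD.nu]

theorem nu_pos (d : CD) : (0 : ℝ) < d.nu := by
  rw [nu_cast]; have := nu0_pos d; positivity

theorem UF_eq (d : CD) (e : Fin d.nE) (k : Fin d.nD) :
    d.UF e k = ((d.terms.getD e (SV.zero, SV.zero)).1.val k : ℝ) / d.nu0 := by
  simp [CD.UF, CD.Uq]

theorem WF_eq (d : CD) (e : Fin d.nE) (k : Fin d.nD) :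
    d.WF e k = ((d.terms.getD e (SV.zero, SV.zero)).2.val k : ℝ) / d.nu0 := by
  simp [CD.WF, CD.Wq]

/-- the sum of a function over all terms, when it vanishes on the fillers -/
theorem sum_terms (d : CD) (f : SV × SV → ℝ) :
    ∑ e : Fin d.nE, f (d.terms.getD e (SV.zero, SV.zero)) =
      (d.base.map f).sum + (d.base.map fun c => f (c.1.partner, SV.zero)).sum +
      (d.base.map fun c => f (SV.zero, c.2.partner)).sum +
      ∑ k ∈ range d.nD, ((d.nu - d.diagU k : ℕ) : ℝ) * f (SV.one k 1, SV.zero) +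
      ∑ k ∈ range d.nD, ((d.nu - d.diagW k : ℕ) : ℝ) * f (SV.zero, SV.one k 1) := by
  have h := sum_getD d.terms (SV.zero, SV.zero) f
  refine h.trans ?_
  simp only [CD.terms, List.map_append, List.sum_append, sum_flatMap, sum_range_list,
    List.map_map, List.map_replicate, List.sum_replicate, nsmul_eq_mul, Function.comp_def]

/-- the Gram matrix of a list of vectors together with their partners and the fillers -/
theorem gram (L : List SV) (nu nD : ℕ) (diag : ℕ → ℕ)
    (hd : ∀ k, diag k = (L.map fun v => (v.val k).natAbs ^ 2 + (v.partner.val k).natAbs ^ 2).sum)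
    (hle : ∀ k, diag k ≤ nu) (k k' : Fin nD) :
    (L.map fun v => (v.val k : ℝ) * (v.val k' : ℝ)).sum +
      (L.map fun v => (v.partner.val k : ℝ) * (v.partner.val k' : ℝ)).sum +
      ∑ j ∈ range nD, ((nu - diag j : ℕ) : ℝ) *
        (((SV.one j 1).val k : ℝ) * ((SV.one j 1).val k' : ℝ)) = nu * idm k k' := by
  rw [← List.sum_map_add]
  by_cases h : k = k'
  · subst h
    rw [sum_eq_single (k : ℕ)]
    · have h1 : (L.map fun v => (v.val k : ℝ) * (v.val k : ℝ) +
          (v.partner.val k : ℝ) * (v.partner.val k : ℝ)).sum = (diag k : ℝ) := by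
        rw [hd, Nat.cast_list_sum, List.map_map]
        congr 1
        refine List.map_congr_left fun v _ => ?_
        simp only [Function.comp_apply, Nat.cast_add, Nat.cast_pow, Nat.cast_natAbs, Int.cast_abs,
          sq_abs]
        ring
      rw [h1, Nat.cast_sub (hle k)]
      simp [val_one, idm]
    · intro j _ hj
      simp [val_one, hj.symm]
    · intro hk
      exact absurd (mem_range.2 k.2) hk
  · have h' : (k : ℕ) ≠ k' := fun e => h (Fin.ext e)
    have h1 : (L.map fun v => (v.val k : ℝ) * (v.val k' : ℝ) +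
          (v.partner.val k : ℝ) * (v.partner.val k' : ℝ)).sum = 0 := by
      refine List.sum_eq_zero fun x hx => ?_
      obtain ⟨v, -, rfl⟩ := List.mem_map.1 hx
      exact_mod_cast val_partner (v := v) h'
    rw [h1, sum_eq_zero]
    · simp [idm, h]
    · intro j _
      simp only [val_one]
      split_ifs with h1 h2
      · exact absurd (h1.trans h2.symm) h'
      all_goals simp

theorem tightU (d : CD) : Tight d.UF := by
  intro k k'
  have hg := gram (d.base.map Prod.fst) d.nu d.nD d.diagU
    (fun k => by rw [List.map_map]; rfl) (diagU_le d) k k'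
  have hs := sum_terms d fun c => (c.1.val k : ℝ) * (c.1.val k' : ℝ)
  simp only [val_zero, Int.cast_zero, mul_zero, List.map_const', List.sum_replicate, smul_zero,
    add_zero, sum_const_zero] at hs
  simp only [List.map_map, Function.comp_def] at hg
  have h0 : (d.nu0 : ℝ) ≠ 0 := by have := nu0_pos d; positivity
  simp only [UF_eq, div_mul_div_comm, ← sum_div]
  rw [hs, hg, nu_cast]
  field_simp

theorem tightW (d : CD) : Tight d.WF := by
  intro k k'
  have hg := gram (d.base.map Prod.snd) d.nu d.nD d.diagW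
    (fun k => by rw [List.map_map]; rfl) (diagW_le d) k k'
  have hs := sum_terms d fun c => (c.2.val k : ℝ) * (c.2.val k' : ℝ)
  simp only [val_zero, Int.cast_zero, mul_zero, List.map_const', List.sum_replicate, smul_zero,
    add_zero, sum_const_zero] at hs
  simp only [List.map_map, Function.comp_def] at hg
  have h0 : (d.nu0 : ℝ) ≠ 0 := by have := nu0_pos d; positivity
  simp only [WF_eq, div_mul_div_comm, ← sum_div]
  rw [hs, hg, nu_cast]
  field_simp

/-- both indices of the vector are in the same block -/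
def OneBlk (d : CD) (v : SV) : Prop := d.blk v.1 = d.blk v.2.2.1

theorem blk_clock (d : CD) {s : ℕ} (h : s < d.dC) : d.blk s = 0 := by simp [CD.blk, h]

theorem blk_qi (d : CD) (q : ℕ) {b : ℕ} (hb : b < 2) : d.blk (d.qi q b) = q + 1 := by
  unfold CD.blk CD.qi
  rw [if_neg (by omega)]
  omega

theorem oneBlk_one (d : CD) (i : ℕ) (c : ℤ) : OneBlk d (SV.one i c) := rfl

theorem oneBlk_zero (d : CD) : OneBlk d SV.zero := rfl

theorem oneBlk_clock (d : CD) {s s' : ℕ} (h : s < d.dC) (h' : s' < d.dC) (c c' : ℤ) :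
    OneBlk d (s, c, s', c') := (blk_clock d h).trans (blk_clock d h').symm

theorem oneBlk_qi (d : CD) (q : ℕ) (c c' : ℤ) : OneBlk d (d.qi q 0, c, d.qi q 1, c') :=
  (blk_qi d q (by omega)).trans (blk_qi d q (by omega)).symm

theorem base_oneBlk (d : CD) {c : SV × SV} (hc : c ∈ d.base) : OneBlk d c.1 ∧ OneBlk d c.2 := by
  simp only [CD.base, List.mem_append, List.mem_flatMap, List.mem_range, List.mem_map,
    List.mem_cons, List.not_mem_nil, or_false] at hc
  rcases hc with (((⟨t, ht, hc⟩ | ⟨j, -, rfl⟩) | rfl) | ⟨s, -, s', -, rfl⟩) | ⟨q, -, hc⟩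
  · have hd : 5 * t + 5 < d.dC := by unfold CD.dC; omega
    simp only [CD.stepTerms, CD.gateEdge, CD.edge, List.mem_append, List.mem_cons,
      List.not_mem_nil, or_false] at hc
    rcases hc with ((rfl | rfl | rfl | rfl | rfl | rfl | rfl | rfl) | rfl | rfl) | rfl | rfl
    all_goals
      refine ⟨?_, ?_⟩ <;>
        first
        | exact oneBlk_one _ _ _
        | exact oneBlk_qi _ _ _ _
        | exact oneBlk_clock d (by omega) (by omega) _ _
  · exact ⟨oneBlk_one _ _ _, oneBlk_one _ _ _⟩
  · exact ⟨oneBlk_one _ _ _, oneBlk_one _ _ _⟩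
  · exact ⟨oneBlk_one _ _ _, oneBlk_one _ _ _⟩
  · rcases hc with rfl | rfl | rfl | rfl <;> exact ⟨oneBlk_one _ _ _, oneBlk_one _ _ _⟩

theorem terms_oneBlk (d : CD) {c : SV × SV} (hc : c ∈ d.terms) : OneBlk d c.1 ∧ OneBlk d c.2 := by
  simp only [CD.terms, List.mem_append, List.mem_flatMap, List.mem_map, List.mem_replicate] at hc
  rcases hc with (((hc | ⟨c, hc, rfl⟩) | ⟨c, hc, rfl⟩) | ⟨k, -, -, rfl⟩) | ⟨k, -, -, rfl⟩
  · exact base_oneBlk d hc
  · exact ⟨(base_oneBlk d hc).1, oneBlk_zero d⟩
  · exact ⟨oneBlk_zero d, (base_oneBlk d hc).2⟩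
  · exact ⟨oneBlk_one _ _ _, oneBlk_zero d⟩
  · exact ⟨oneBlk_zero d, oneBlk_one _ _ _⟩

theorem blk_of_val {d : CD} {v : SV} (h : OneBlk d v) {k : ℕ} (hk : v.val k ≠ 0) :
    d.blk k = d.blk v.1 := by
  by_cases h1 : k = v.1
  · rw [h1]
  · by_cases h2 : k = v.2.2.1
    · rw [h2]; exact h.symm
    · exact absurd (by simp [SV.val, h1, h2]) hk

theorem getD_mem (d : CD) (e : Fin d.nE) : d.terms.getD e (SV.zero, SV.zero) ∈ d.terms := by
  rw [List.getD_eq_getElem _ _ e.2]; exact List.getElem_mem _

theorem blkOK (d : CD) : BlkOK d.blkF d.UF d.WF := by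
  constructor
  · intro e k k' h h'
    have hb := (terms_oneBlk d (getD_mem d e)).1
    rw [UF_eq] at h h'
    have h1 := blk_of_val hb (k := k) fun h0 => h (by simp only [h0]; simp)
    have h2 := blk_of_val hb (k := k') fun h0 => h' (by simp only [h0]; simp)
    unfold CD.blkF
    rw [h1, h2]
  · intro e k k' h h'
    have hb := (terms_oneBlk d (getD_mem d e)).2
    rw [WF_eq] at h h'
    have h1 := blk_of_val hb (k := k) fun h0 => h (by simp only [h0]; simp)
    have h2 := blk_of_val hb (k := k') fun h0 => h' (by simp only [h0]; simp)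
    unfold CD.blkF
    rw [h1, h2]

theorem nE_pos (d : CD) : 1 ≤ d.nE := by
  simp only [CD.nE, CD.terms, CD.base, List.length_append, List.length_singleton]
  omega

end KIT

theorem kit_struct (d : CD) : Tight d.UF ∧ Tight d.WF ∧ BlkOK d.blkF d.UF d.WF ∧ 1 ≤ d.nE :=
  ⟨KIT.tightU d, KIT.tightW d, KIT.blkOK d, KIT.nE_pos d⟩

end Vale.Agent.P370Z
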