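import Vale.Agent.P370Z.KIT.Sim

/-!
# P370, circuit Hamiltonian: simulation of the verifier by real steps
-/

namespace Vale.Agent.P370Z.KIT

open Finset

noncomputable section

/-- one real step, with the rational approximation of the Hadamard gate -/
def stepA (d : CD) (st : ℕ × ℕ × ℕ × ℕ) : RV d.nq → RV d.nq :=
  stepR (fq d st.1) (fq d st.2.1) (gm d st.2.2.1) (gm d st.2.2.2)

/-- the first `t` steps -/
def runA (d : CD) : ℕ → RV d.nq → RV d.nq
  | 0, Φ => Φ
  | t + 1, Φ => stepA d (d.steps.getD t (0, 0, 0, 0)) (runA d t Φ)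

theorem stepA_sub (d : CD) (st : ℕ × ℕ × ℕ × ℕ) (Φ Ψ : RV d.nq) :
    stepA d st (Φ - Ψ) = stepA d st Φ - stepA d st Ψ := stepR_sub _ _ _ _ _ _

theorem stepA_add (d : CD) (st : ℕ × ℕ × ℕ × ℕ) (Φ Ψ : RV d.nq) :
    stepA d st (Φ + Ψ) = stepA d st Φ + stepA d st Ψ := stepR_add _ _ _ _ _ _

theorem ns_stepA {d : CD} (h : WFd d) {t : ℕ} (ht : t < d.nT) (Φ : RV d.nq) :
    ns (stepA d (d.steps.getD t (0, 0, 0, 0)) Φ) = ns Φ :=
  ns_stepR (h.fq_ne ht) (orth_gm _ _) (orth_gm _ _) Φ

theorem nr_stepA {d : CD} (h : WFd d) {t : ℕ} (ht : t < d.nT) (Φ : RV d.nq) :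
    nr (stepA d (d.steps.getD t (0, 0, 0, 0)) Φ) = nr Φ := by
  rw [nr, ns_stepA h ht, nr]

theorem runA_sub (d : CD) (t : ℕ) (Φ Ψ : RV d.nq) :
    runA d t (Φ - Ψ) = runA d t Φ - runA d t Ψ := by
  induction t with
  | zero => rfl
  | succ t ih => simp only [runA, ih, stepA_sub]

theorem runA_add (d : CD) (t : ℕ) (Φ Ψ : RV d.nq) :
    runA d t (Φ + Ψ) = runA d t Φ + runA d t Ψ := by
  induction t with
  | zero => rfl
  | succ t ih => simp only [runA, ih, stepA_add]

theorem ns_runA {d : CD} (h : WFd d) {t : ℕ} (ht : t ≤ d.nT) (Φ : RV d.nq) :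
    ns (runA d t Φ) = ns Φ := by
  induction t with
  | zero => rfl
  | succ t ih => rw [runA, ns_stepA h ht, ih (Nat.le_of_succ_le ht)]

theorem nr_runA {d : CD} (h : WFd d) {t : ℕ} (ht : t ≤ d.nT) (Φ : RV d.nq) :
    nr (runA d t Φ) = nr Φ := by
  rw [nr, ns_runA h ht, nr]

/-- a complex vector as a real vector with one more qubit: real and imaginary parts -/
def realV {n : ℕ} (ψ : QVec n) : RV (n + 1) := fun y =>
  if y (Fin.last n) then (ψ (Fin.init y)).im else (ψ (Fin.init y)).re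

theorem sum_snoc {n : ℕ} (f : (Fin (n + 1) → Bool) → ℝ) :
    ∑ y, f y = ∑ x : Fin n → Bool, (f (Fin.snoc x false) + f (Fin.snoc x true)) := by
  rw [← (Fin.snocEquiv fun _ => Bool).sum_comp, Fintype.sum_prod_type, sum_comm]
  refine sum_congr rfl fun x _ => ?_
  rw [Fintype.sum_bool, add_comm]
  rfl

theorem realV_false {n : ℕ} (ψ : QVec n) (x : Fin n → Bool) :
    realV ψ (Fin.snoc x false) = (ψ x).re := by simp [realV]

theorem realV_true {n : ℕ} (ψ : QVec n) (x : Fin n → Bool) :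
    realV ψ (Fin.snoc x true) = (ψ x).im := by simp [realV]

theorem re_im_sq (z : ℂ) : z.re ^ 2 + z.im ^ 2 = ‖z‖ ^ 2 := by
  rw [Complex.sq_norm, Complex.normSq_apply]; ring

theorem ns_realV {n : ℕ} (ψ : QVec n) : ns (realV ψ) = ∑ y, ‖ψ y‖ ^ 2 := by
  rw [ns, sum_snoc]
  simp only [realV_false, realV_true, re_im_sq]

theorem ns_proj_realV {n : ℕ} (ψ : QVec n) (q : Fin n) :
    ns (proj q.castSucc true (realV ψ)) = ∑ y, if y q then ‖ψ y‖ ^ 2 else 0 := by
  rw [ns, sum_snoc]
  refine sum_congr rfl fun x _ => ?_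
  simp only [proj, Fin.snoc_castSucc, realV_false, realV_true]
  split_ifs
  · exact re_im_sq _
  · simp

/-! ### The exact gates -/

def mI : Bool → Bool → ℝ := fun a b => if a = b then 1 else 0

def mX : Bool → Bool → ℝ := fun a b => if a = b then 0 else 1

def mZ : Bool → Bool → ℝ := fun a b => if a = b then (if a then -1 else 1) else 0

def mH : Bool → Bool → ℝ := fun a b => (if a && b then -1 else 1) / √2

theorem orth_mH : Orth 1 mH := by
  have h : (√2 : ℝ) ^ 2 = 2 := Real.sq_sqrt (by norm_num)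
  have h0 : (√2 : ℝ) ≠ 0 := by positivity
  refine ⟨?_, ?_, ?_⟩ <;> simp only [mH] <;> field_simp <;> simp [h] <;> norm_num

theorem sim_had {n : ℕ} (q : Fin n) (φ : QVec n) :
    stepR (Fin.last n) q.castSucc mH mH (realV φ) = realV ((Gate.had q).act φ) := by
  funext y
  rw [stepR_apply (Fin.castSucc_lt_last q).ne', ite_self]
  have hq : y q.castSucc = Fin.init y q := rfl
  simp only [app1, realV, Gate.act, Function.update_of_ne (Fin.castSucc_lt_last q).ne',
    Fin.init_update_castSucc, hq, mH, Complex.div_ofReal_im, Complex.div_ofReal_re]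
  cases y (Fin.last n) <;> cases Fin.init y q <;> simp <;> ring

theorem sim_tee {n : ℕ} (q : Fin n) (φ : QVec n) :
    stepR q.castSucc (Fin.last n) mI mH (stepR q.castSucc (Fin.last n) mI mZ (realV φ)) =
      realV ((Gate.tee q).act φ) := by
  funext y
  have hq : y q.castSucc = Fin.init y q := rfl
  simp only [stepR_apply (Fin.castSucc_lt_last q).ne, app1, realV, Gate.act,
    Function.update_of_ne (Fin.castSucc_lt_last q).ne, Function.update_self, Function.update_idem,
    Fin.init_update_last, hq, mH, mI, mZ]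
  cases y (Fin.last n) <;> cases Fin.init y q <;>
    simp [Complex.div_ofReal_im, Complex.div_ofReal_re] <;> ring

theorem sim_cnot {n : ℕ} (c t : Fin n) (h : c ≠ t) (φ : QVec n) :
    stepR c.castSucc t.castSucc mI mX (realV φ) = realV ((Gate.cnot c t h).act φ) := by
  funext y
  have hc : y c.castSucc = Fin.init y c := rfl
  have ht : y t.castSucc = Fin.init y t := rfl
  rw [stepR_apply fun e => h (Fin.castSucc_injective _ e)]
  simp only [app1, realV, Gate.act, Function.update_of_ne (Fin.castSucc_lt_last t).ne',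
    Fin.init_update_castSucc, hc, ht, mI, mX]
  cases y (Fin.last n) <;> cases Fin.init y c <;> cases Fin.init y t <;> simp

/-- the exact matrices -/
def gX (d : CD) (g : ℕ) : Bool → Bool → ℝ := if g < 3 then gm d g else mH

theorem gX_zero (d : CD) : gX d 0 = mI := by
  funext a b; cases a <;> cases b <;> simp [gX, gm, CD.gv, refl2, mI]

theorem gX_one (d : CD) : gX d 1 = mX := by
  funext a b; cases a <;> cases b <;> simp [gX, gm, CD.gv, refl2, mX]

theorem gX_two (d : CD) : gX d 2 = mZ := by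
  funext a b; cases a <;> cases b <;> simp [gX, gm, CD.gv, refl2, mZ]

theorem gX_three (d : CD) : gX d 3 = mH := by simp [gX]

theorem orth_gX (d : CD) (g : ℕ) : Orth 1 (gX d g) := by
  unfold gX
  split_ifs
  · exact orth_gm d g
  · exact orth_mH

theorem orth_refl_sub {J q : ℝ} (hJ : 0 < J) (hq : |q - (√2 - 1) * J| ≤ 1) :
    ∃ K, K ≤ (2 / J) ^ 2 ∧ Orth K (refl2 J q (-1) - mH) := by
  have h2 : (√2 : ℝ) ^ 2 = 2 := Real.sq_sqrt (by norm_num)
  have h0 : (0 : ℝ) < √2 := by positivity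
  have hle : (√2 : ℝ) ≤ 2 := by nlinarith
  have hN : 0 < J ^ 2 + q ^ 2 := by positivity
  have hH : mH = fun a b => (if a && b then -1 else 1) * (√2 / 2) := by
    funext a b
    rw [mH, div_eq_iff h0.ne', mul_assoc, div_mul_eq_mul_div, ← sq, h2]
    simp
  rw [hH]
  generalize (√2 : ℝ) = r at *
  have key : ((J ^ 2 + -1 * q ^ 2) / (J ^ 2 + q ^ 2) - r / 2) ^ 2 +
      (J * q * (1 - -1) / (J ^ 2 + q ^ 2) - r / 2) ^ 2 =
      (2 + r) * (q - (r - 1) * J) ^ 2 / (J ^ 2 + q ^ 2) +
      (r ^ 2 - 2) * (q ^ 2 / 2 + 2 * J * q + (1 / 2 - r) * J ^ 2) / (J ^ 2 + q ^ 2) := by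
    field_simp
    ring
  rw [h2, sub_self, zero_mul, zero_div, add_zero] at key
  refine ⟨(2 + r) * (q - (r - 1) * J) ^ 2 / (J ^ 2 + q ^ 2), ?_, ?_, ?_, ?_⟩
  · have h1 : (q - (r - 1) * J) ^ 2 ≤ 1 := by
      rw [← sq_abs]; exact pow_le_one₀ (abs_nonneg _) hq
    rw [div_pow, div_le_div_iff₀ hN (by positivity)]
    have h3 : (2 + r) * (q - (r - 1) * J) ^ 2 ≤ 4 * 1 :=
      mul_le_mul (by linarith) h1 (sq_nonneg _) (by norm_num)
    nlinarith [sq_nonneg q, sq_nonneg J]
  all_goals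
    simp only [Pi.sub_apply, refl2, Bool.and_self, Bool.and_false, Bool.false_and,
      Bool.false_eq_true, if_false, if_true]
  · rw [← key]; ring
  · rw [← key]; ring
  · ring

theorem sqrt_approx (J : ℕ) : |((Nat.sqrt (2 * J ^ 2) - J : ℕ) : ℝ) - (√2 - 1) * J| ≤ 1 := by
  have h1 : Nat.sqrt (2 * J ^ 2) ^ 2 ≤ 2 * J ^ 2 := Nat.sqrt_le' _
  have h2 : 2 * J ^ 2 < (Nat.sqrt (2 * J ^ 2) + 1) ^ 2 := Nat.lt_succ_sqrt' _
  have h3 : J ≤ Nat.sqrt (2 * J ^ 2) := Nat.le_sqrt'.2 (by omega)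
  rw [Nat.cast_sub h3]
  generalize Nat.sqrt (2 * J ^ 2) = m at *
  have hr : (√2 * (J : ℝ)) ^ 2 = 2 * (J : ℝ) ^ 2 := by
    rw [mul_pow, Real.sq_sqrt (by norm_num)]
  have hp : 0 ≤ √2 * (J : ℝ) := by positivity
  have h4 : (m : ℝ) ≤ √2 * J :=
    (pow_le_pow_iff_left₀ (by positivity) hp two_ne_zero).1 (by rw [hr]; exact_mod_cast h1)
  have h5 : √2 * (J : ℝ) ≤ m + 1 :=
    (pow_le_pow_iff_left₀ hp (by positivity) two_ne_zero).1 (by rw [hr]; exact_mod_cast h2.le)
  rw [abs_le]
  constructor <;> linarith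

theorem qq_approx (d : CD) : |(d.qq : ℝ) - (√2 - 1) * d.JJ| ≤ 1 := sqrt_approx d.JJ

theorem orth_gm_sub (d : CD) (g : ℕ) : ∃ K, K ≤ (2 / (d.JJ : ℝ)) ^ 2 ∧ Orth K (gm d g - gX d g) := by
  unfold gX
  split_ifs with h
  · exact ⟨0, by positivity, by simp [Orth]⟩
  · have hJ : (0 : ℝ) < d.JJ := by exact_mod_cast JJ_pos d
    have hg : gm d g = refl2 d.JJ d.qq (-1) := by
      unfold gm CD.gv
      rw [if_neg (by omega), if_neg (by omega), if_neg (by omega)]
      simp only [Int.cast_natCast, Int.cast_neg, Int.cast_one]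
    rw [hg]
    exact orth_refl_sub hJ (qq_approx d)

/-- one real step with the exact Hadamard gate -/
def stepX (d : CD) (st : ℕ × ℕ × ℕ × ℕ) : RV d.nq → RV d.nq :=
  stepR (fq d st.1) (fq d st.2.1) (gX d st.2.2.1) (gX d st.2.2.2)

theorem nr_stepA_sub (d : CD) {st : ℕ × ℕ × ℕ × ℕ} (h : fq d st.1 ≠ fq d st.2.1) (Φ : RV d.nq) :
    nr (stepA d st Φ - stepX d st Φ) ≤ 2 / d.JJ * nr Φ := by
  obtain ⟨K0, hK0, h0⟩ := orth_gm_sub d st.2.2.1
  obtain ⟨K1, hK1, h1⟩ := orth_gm_sub d st.2.2.2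
  refine nr_le_of_ns_le (mul_nonneg (by positivity) (nr_nonneg _)) ?_
  rw [stepA, stepX, stepR_sub_mat, ns_stepR' h h0 h1, mul_pow, nr_sq, ← ns_proj (fq d st.1) Φ,
    mul_add]
  exact add_le_add (mul_le_mul_of_nonneg_right hK0 (ns_nonneg _))
    (mul_le_mul_of_nonneg_right hK1 (ns_nonneg _))

theorem ns_foldX (d : CD) (L : List (ℕ × ℕ × ℕ × ℕ)) (h : ∀ st ∈ L, fq d st.1 ≠ fq d st.2.1)
    (Φ : RV d.nq) : ns (L.foldl (fun Φ st => stepX d st Φ) Φ) = ns Φ := by
  induction L generalizing Φ with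
  | nil => rfl
  | cons st L ih =>
    rw [List.foldl_cons, ih fun s hs => h s (List.mem_cons_of_mem _ hs), stepX,
      ns_stepR (h st List.mem_cons_self) (orth_gX _ _) (orth_gX _ _)]

theorem fold_approx (d : CD) (L : List (ℕ × ℕ × ℕ × ℕ)) (h : ∀ st ∈ L, fq d st.1 ≠ fq d st.2.1)
    (Φ Ψ : RV d.nq) :
    nr (L.foldl (fun Φ st => stepA d st Φ) Φ - L.foldl (fun Φ st => stepX d st Φ) Ψ) ≤
      nr (Φ - Ψ) + L.length * (2 / d.JJ * nr Ψ) := by
  induction L generalizing Φ Ψ with
  | nil => simp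
  | cons st L ih =>
    have hst := h st List.mem_cons_self
    rw [List.foldl_cons, List.foldl_cons]
    refine (ih (fun s hs => h s (List.mem_cons_of_mem _ hs)) _ _).trans ?_
    have h1 : nr (stepX d st Ψ) = nr Ψ := by
      rw [nr, stepX, ns_stepR hst (orth_gX _ _) (orth_gX _ _), nr]
    have h2 : nr (stepA d st Φ - stepA d st Ψ) = nr (Φ - Ψ) := by
      rw [← stepA_sub, nr, stepA, ns_stepR hst (orth_gm _ _) (orth_gm _ _), nr]
    have h3 := nr_tri (stepA d st Φ) (stepA d st Ψ) (stepX d st Ψ)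
    have h4 := nr_stepA_sub d hst Ψ
    rw [h1, List.length_cons]
    push_cast
    linarith

theorem runA_eq (d : CD) {t : ℕ} (ht : t ≤ d.nT) (Φ : RV d.nq) :
    runA d t Φ = (d.steps.take t).foldl (fun Φ st => stepA d st Φ) Φ := by
  induction t with
  | zero => rfl
  | succ t ih =>
    have ht' : t < d.steps.length := ht
    rw [runA, ih (Nat.le_of_succ_le ht), List.take_succ_eq_append_getElem ht', List.foldl_append,
      List.getD_eq_getElem _ _ ht']
    rfl

/-- the same, as a vector on the qubits of the description of the verifier -/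
def rl (V : Verifier) (φ : QVec (V.w + V.a)) : RV V.cd.nq := realV φ

theorem ns_rl (V : Verifier) (φ : QVec (V.w + V.a)) : ns (rl V φ) = ∑ y, ‖φ y‖ ^ 2 := ns_realV φ

theorem fq_castSucc (V : Verifier) (q : Fin (V.w + V.a)) : fq V.cd q = q.castSucc :=
  Fin.ext (fq_val (Nat.lt_succ_of_lt q.2))

theorem fq_last (V : Verifier) : fq V.cd V.cd.n = Fin.last (V.w + V.a) :=
  Fin.ext (fq_val (Nat.lt_succ_self _))

theorem foldX_gates (V : Verifier) (l : List (Gate (V.w + V.a))) (φ : QVec (V.w + V.a)) :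
    ((l.map Gate.data).flatMap fun g =>
      if g.1 = 0 then [(V.cd.n, g.2.1, 3, 3)]
      else if g.1 = 1 then [(g.2.1, V.cd.n, 0, 2), (g.2.1, V.cd.n, 0, 3)]
      else [(g.2.1, g.2.2, 0, 1)]).foldl (fun Φ st => stepX V.cd st Φ) (rl V φ) =
      rl V (runGates l φ) := by
  induction l generalizing φ with
  | nil => rfl
  | cons G l ih =>
    rw [List.map_cons, List.flatMap_cons, List.foldl_append, runGates, ← ih]
    congr 1
    cases G with
    | had q =>
      simp only [Gate.data, if_true, List.foldl_cons, List.foldl_nil, stepX, fq_castSucc, fq_last,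
        gX_three]
      exact sim_had q φ
    | tee q =>
      simp only [Gate.data, one_ne_zero, if_true, if_false, List.foldl_cons, List.foldl_nil, stepX,
        fq_castSucc, fq_last, gX_three, gX_zero, gX_two]
      exact sim_tee q φ
    | cnot c t h =>
      simp only [Gate.data, OfNat.ofNat_ne_zero, OfNat.ofNat_ne_one, if_false, List.foldl_cons,
        List.foldl_nil, stepX, fq_castSucc, gX_zero, gX_one]
      exact sim_cnot c t h φ

theorem foldX_steps (V : Verifier) (φ : QVec (V.w + V.a)) :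
    V.cd.steps.foldl (fun Φ st => stepX V.cd st Φ) (rl V φ) = rl V (runGates V.gates φ) :=
  foldX_gates V V.gates φ

theorem steps_ne (V : Verifier) : ∀ st ∈ V.cd.steps, fq V.cd st.1 ≠ fq V.cd st.2.1 :=
  fun st hst => fq_ne ((wf_cd V).steps st hst).1 ((wf_cd V).steps st hst).2.1
    ((wf_cd V).steps st hst).2.2

theorem ns_runGates (V : Verifier) (φ : QVec (V.w + V.a)) :
    ns (rl V (runGates V.gates φ)) = ns (rl V φ) := by
  rw [← foldX_steps, ns_foldX _ _ (steps_ne V)]

theorem sim (V : Verifier) (φ : QVec (V.w + V.a)) :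
    nr (runA V.cd V.cd.nT (rl V φ) - rl V (runGates V.gates φ)) ≤ 1 / 500 * nr (rl V φ) := by
  rw [runA_eq _ le_rfl, CD.nT, List.take_length, ← foldX_steps]
  refine (fold_approx _ _ (steps_ne V) _ _).trans ?_
  rw [sub_self, nr_zero, zero_add, ← mul_assoc]
  refine mul_le_mul_of_nonneg_right ?_ (nr_nonneg _)
  have h : (V.cd.JJ : ℝ) = 1000 * ((V.cd.steps.length : ℝ) + 1) := by simp [CD.JJ, CD.nT]
  rw [h, ← mul_div_assoc, div_le_div_iff₀ (by positivity) (by norm_num)]
  linarith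

theorem out_eq (V : Verifier) (ψ : QVec V.w) :
    ns (proj (fq V.cd V.cd.out) true (rl V (runGates V.gates (V.input ψ)))) = V.accept ψ := by
  have h : fq V.cd V.cd.out = V.out.castSucc := fq_castSucc V V.out
  rw [h]
  exact ns_proj_realV _ V.out

theorem input_append (V : Verifier) (ψ : QVec V.w) (x : Fin V.w → Bool) :
    V.input ψ (Fin.append x fun _ => false) = ψ x := by
  simp [Verifier.input]

theorem append_eq (V : Verifier) {y : Fin (V.w + V.a) → Bool}
    (h : ∀ j : Fin V.a, y (Fin.natAdd V.w j) = false) :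
    (Fin.append (fun i => y (Fin.castAdd V.a i)) fun _ => false) = y := by
  funext k
  refine Fin.addCases (fun i => ?_) (fun j => ?_) k
  · simp
  · simp [h j]

theorem ns_input (V : Verifier) (ψ : QVec V.w) :
    ns (rl V (V.input ψ)) = ∑ y, ‖ψ y‖ ^ 2 := by
  rw [ns_rl]
  symm
  refine Fintype.sum_of_injective (fun x : Fin V.w → Bool => Fin.append x fun _ : Fin V.a => false)
    (fun x x' h => ?_) _ _ (fun y hy => ?_) fun x => by rw [input_append]
  · funext i
    simpa using congrFun h (Fin.castAdd V.a i)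
  · rw [Verifier.input, if_neg fun h => hy ⟨_, append_eq V h⟩]
    simp

theorem fq_anc (V : Verifier) (j : Fin V.a) :
    fq V.cd (V.cd.w + j) = (Fin.natAdd V.w j).castSucc := fq_castSucc V (Fin.natAdd V.w j)

theorem anc_input' (V : Verifier) (ψ : QVec V.w) (j : Fin V.a) :
    proj (Fin.natAdd V.w j).castSucc true (realV (V.input ψ)) = 0 := by
  funext y
  simp only [proj]
  split_ifs with hy
  · have h0 : V.input ψ (Fin.init y) = 0 := by
      rw [Verifier.input, if_neg]
      intro hc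
      have h1 : y (Fin.natAdd V.w j).castSucc = false := hc j
      rw [h1] at hy
      exact Bool.false_ne_true hy
    simp [realV, h0]
  · rfl

theorem anc_input (V : Verifier) (ψ : QVec V.w) {j : ℕ} (hj : j < V.a) :
    proj (fq V.cd (V.cd.w + j)) true (rl V (V.input ψ)) = 0 := by
  have h := fq_anc V ⟨j, hj⟩
  simp only at h
  rw [h]
  exact anc_input' V ψ ⟨j, hj⟩

theorem exists_witness' (V : Verifier) (Φ : RV (V.w + V.a + 1))
    (h : ∀ j : Fin V.a, proj (Fin.natAdd V.w j).castSucc true Φ = 0) :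
    ∃ ψ : QVec V.w, Φ = realV (V.input ψ) := by
  refine ⟨fun x => ⟨Φ (Fin.snoc (Fin.append x fun _ => false) false),
    Φ (Fin.snoc (Fin.append x fun _ => false) true)⟩, funext fun y => ?_⟩
  have hy : Fin.snoc (Fin.init y) (y (Fin.last _)) = y := Fin.snoc_init_self y
  simp only [realV, Verifier.input]
  by_cases hc : ∀ j : Fin V.a, Fin.init y (Fin.natAdd V.w j) = false
  · rw [if_pos hc, append_eq V hc]
    cases h1 : y (Fin.last (V.w + V.a))
    · rw [h1] at hy
      simp only [Bool.false_eq_true, if_false]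
      rw [hy]
    · rw [h1] at hy
      simp only [if_true]
      rw [hy]
  · rw [if_neg hc]
    push Not at hc
    obtain ⟨j, hj⟩ := hc
    have h1 := congrFun (h j) y
    have h2 : y (Fin.natAdd V.w j).castSucc = true := by simpa [Fin.init] using hj
    simp only [proj, h2, if_true] at h1
    simpa using h1

theorem exists_witness (V : Verifier) (Φ : RV V.cd.nq)
    (h : ∀ j < V.a, proj (fq V.cd (V.cd.w + j)) true Φ = 0) :
    ∃ ψ : QVec V.w, Φ = rl V (V.input ψ) :=
  exists_witness' V Φ fun j => by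
    have h1 := h j j.2
    rw [fq_anc] at h1
    exact h1

end

end Vale.Agent.P370Z.KIT
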