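import Vale.Agent.P370Z.KIT.Vec
import Vale.Agent.P370Z.KIT.Struct

/-!
# P370, circuit Hamiltonian: states with one particle per block as clock-indexed qubit vectors
-/

namespace Vale.Agent.P370Z.KIT

open Finset

noncomputable section

/-- the number `q` as the name of a qubit -/
def fq (d : CD) (q : ℕ) : Fin d.nq := ⟨q % d.nq, Nat.mod_lt _ (Nat.succ_pos _)⟩

theorem fq_val {d : CD} {q : ℕ} (h : q < d.nq) : (fq d q : ℕ) = q := Nat.mod_eq_of_lt h

theorem fq_ne {d : CD} {q q' : ℕ} (h : q < d.nq) (h' : q' < d.nq) (hne : q ≠ q') :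
    fq d q ≠ fq d q' := fun e => hne (by rw [← fq_val h, ← fq_val h', e])

theorem qi_lt (d : CD) (q : Fin d.nq) (b : Bool) : d.qi q b.toNat < d.nD := by
  have := q.2
  have := Bool.toNat_lt b
  unfold CD.qi CD.nD
  omega

/-- the configuration with clock `s` and qubits `y` -/
def cfg (d : CD) (s : Fin d.dC) (y : Fin d.nq → Bool) : Fin (d.nq + 1) → Fin d.nD :=
  Fin.cons ⟨s, lt_of_lt_of_le s.2 (Nat.le_add_right _ _)⟩ fun q => ⟨d.qi q (y q).toNat, qi_lt d q _⟩

/-- the component of a state at the clock value `s` -/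
def amp (d : CD) (ψ : (Fin (d.nq + 1) → Fin d.nD) → ℝ) (s : ℕ) : RV d.nq := fun y =>
  if h : s < d.dC then ψ (cfg d ⟨s, h⟩ y) else 0

/-- the matrices of the gates -/
def gm (d : CD) (g : ℕ) : Bool → Bool → ℝ := refl2 (d.gv g).1 (d.gv g).2.1 (d.gv g).2.2

def gN (d : CD) (g : ℕ) : ℝ := ((d.gv g).1 : ℝ) ^ 2 + ((d.gv g).2.1 : ℝ) ^ 2

theorem JJ_pos (d : CD) : 1 ≤ d.JJ := by unfold CD.JJ; omega

theorem one_le_gN (d : CD) (g : ℕ) : 1 ≤ gN d g := by
  have h : (1 : ℝ) ≤ d.JJ := by exact_mod_cast JJ_pos d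
  unfold gN CD.gv
  split_ifs
  · norm_num
  · norm_num
  · norm_num
  · simp only [Int.cast_natCast]
    nlinarith [sq_nonneg (d.qq : ℝ)]

theorem gv_eps (d : CD) (g : ℕ) : (((d.gv g).2.2 : ℤ) : ℝ) ^ 2 = 1 := by
  unfold CD.gv
  split_ifs <;> simp

theorem orth_gm (d : CD) (g : ℕ) : Orth 1 (gm d g) :=
  orth_refl2 (by have := one_le_gN d g; unfold gN at this; linarith) (gv_eps d g)

/-- the qubits named by the description exist -/
structure WFd (d : CD) : Prop where
  out_lt : d.out < d.n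
  steps : ∀ st ∈ d.steps, st.1 < d.nq ∧ st.2.1 < d.nq ∧ st.1 ≠ st.2.1

theorem wf_cd (V : Verifier) : WFd V.cd := by
  refine ⟨V.out.2, fun st hst => ?_⟩
  simp only [CD.steps, Verifier.cd, List.mem_flatMap, List.mem_map] at hst
  obtain ⟨g, ⟨G, -, rfl⟩, hst⟩ := hst
  have hq : CD.nq V.cd = V.w + V.a + 1 := rfl
  rw [hq]
  cases G with
  | had q =>
    have := q.2
    simp only [Gate.data, if_true, List.mem_singleton] at hst
    subst hst
    simp only [CD.n]
    omega
  | tee q =>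
    have := q.2
    simp only [Gate.data, one_ne_zero, if_true, if_false, List.mem_cons, List.not_mem_nil,
      or_false] at hst
    rcases hst with rfl | rfl <;> simp only [CD.n] <;> omega
  | cnot c t h =>
    have := c.2
    have := t.2
    have h' : (c : ℕ) ≠ t := fun e => h (Fin.ext e)
    simp only [Gate.data, OfNat.ofNat_ne_zero, OfNat.ofNat_ne_one, if_false,
      List.mem_singleton] at hst
    subst hst
    simp only
    omega

theorem WFd.getD {d : CD} (h : WFd d) {t : ℕ} (ht : t < d.nT) :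
    (d.steps.getD t (0, 0, 0, 0)).1 < d.nq ∧ (d.steps.getD t (0, 0, 0, 0)).2.1 < d.nq ∧
      (d.steps.getD t (0, 0, 0, 0)).1 ≠ (d.steps.getD t (0, 0, 0, 0)).2.1 := by
  apply h.steps
  rw [List.getD_eq_getElem _ _ ht]; exact List.getElem_mem _

theorem WFd.fq_ne {d : CD} (h : WFd d) {t : ℕ} (ht : t < d.nT) :
    fq d (d.steps.getD t (0, 0, 0, 0)).1 ≠ fq d (d.steps.getD t (0, 0, 0, 0)).2.1 :=
  KIT.fq_ne (h.getD ht).1 (h.getD ht).2.1 (h.getD ht).2.2

/-- the energy of step `t`, divided by `JJ ^ 2` -/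
def stepE (d : CD) (A : ℕ → RV d.nq) (t : ℕ) (st : ℕ × ℕ × ℕ × ℕ) : ℝ :=
  ns (proj (fq d st.1) false (A (5 * t) - A (5 * t + 1))) +
  ns (proj (fq d st.1) false (A (5 * t + 2) - A (5 * t + 5))) +
  ns (proj (fq d st.1) true (A (5 * t) - A (5 * t + 3))) +
  ns (proj (fq d st.1) true (A (5 * t + 4) - A (5 * t + 5))) +
  ns (proj (fq d st.1) true (A (5 * t + 1))) +
  ns (proj (fq d st.1) true (A (5 * t + 2))) +
  ns (proj (fq d st.1) false (A (5 * t + 3))) +
  ns (proj (fq d st.1) false (A (5 * t + 4))) +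
  gN d st.2.2.1 * ns (app1 (fq d st.2.1) (gm d st.2.2.1) (A (5 * t + 1)) - A (5 * t + 2)) +
  gN d st.2.2.2 * ns (app1 (fq d st.2.1) (gm d st.2.2.2) (A (5 * t + 3)) - A (5 * t + 4))

/-- the energy, multiplied by `nu ^ 2` -/
def Etot (d : CD) (A : ℕ → RV d.nq) : ℝ :=
  (d.JJ : ℝ) ^ 2 * ∑ t ∈ range d.nT, stepE d A t (d.steps.getD t (0, 0, 0, 0)) +
  (d.JJ : ℝ) ^ 2 * ∑ j ∈ range d.2.1.v, ns (proj (fq d (d.w + j)) true (A 0)) +
  ns (proj (fq d d.out) false (A (5 * d.nT)))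

/-! ### Configurations -/

theorem cfg_zero (d : CD) (s : Fin d.dC) (y : Fin d.nq → Bool) : (cfg d s y 0 : ℕ) = s := rfl

theorem cfg_succ (d : CD) (s : Fin d.dC) (y : Fin d.nq → Bool) (q : Fin d.nq) :
    (cfg d s y q.succ : ℕ) = d.qi q (y q).toNat := rfl

theorem blkF_val (d : CD) (k : Fin d.nD) : (d.blkF k : ℕ) = d.blk k := by
  have h := k.2
  simp only [CD.blkF, Fin.val_ofNat]
  refine Nat.mod_eq_of_lt ?_
  unfold CD.blk
  unfold CD.nD at h
  split_ifs <;> omega

theorem blkF_cfg (d : CD) (s : Fin d.dC) (y : Fin d.nq → Bool) (b : Fin (d.nq + 1)) :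
    d.blkF (cfg d s y b) = b := by
  refine Fin.ext ?_
  rw [blkF_val]
  refine Fin.cases ?_ (fun q => ?_) b
  · rw [cfg_zero, blk_clock d s.2]; rfl
  · rw [cfg_succ, blk_qi d _ (Bool.toNat_lt _)]; rfl

theorem cfg_inj (d : CD) : Function.Injective fun p : Fin d.dC × (Fin d.nq → Bool) =>
    cfg d p.1 p.2 := by
  rintro ⟨s, y⟩ ⟨s', y'⟩ h
  have h0 : (s : ℕ) = s' := by
    rw [← cfg_zero d s y, ← cfg_zero d s' y']; exact congrArg (fun l => (l 0 : ℕ)) h
  refine Prod.ext (Fin.ext h0) (funext fun q => ?_)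
  have h1 : d.qi q (y q).toNat = d.qi q (y' q).toNat := by
    rw [← cfg_succ d s y, ← cfg_succ d s' y']; exact congrArg (fun l => (l q.succ : ℕ)) h
  unfold CD.qi at h1
  show y q = y' q
  revert h1
  cases y q <;> cases y' q <;> simp

theorem cfg_surj (d : CD) {l : Fin (d.nq + 1) → Fin d.nD} (h : ∀ b, d.blkF (l b) = b) :
    ∃ s y, cfg d s y = l := by
  have hv : ∀ b, d.blk (l b) = b := fun b => by rw [← blkF_val, h]
  have h0 : (l 0 : ℕ) < d.dC := by
    have := hv 0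
    unfold CD.blk at this
    by_contra hc
    rw [if_neg hc] at this
    simp at this
  refine ⟨⟨l 0, h0⟩, fun q => decide ((l q.succ : ℕ) = d.qi q 1), funext fun b => Fin.ext ?_⟩
  refine Fin.cases rfl (fun q => ?_) b
  rw [cfg_succ]
  have := hv q.succ
  unfold CD.blk at this
  rw [Fin.val_succ] at this
  by_cases hc : (l q.succ : ℕ) < d.dC
  · rw [if_pos hc] at this; omega
  · rw [if_neg hc] at this
    by_cases h1 : (l q.succ : ℕ) = d.qi q 1
    · simp [h1]
    · simp only [h1, decide_false, Bool.toNat_false]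
      unfold CD.qi at h1 ⊢
      omega

theorem sum_cfg (d : CD) (F : (Fin (d.nq + 1) → Fin d.nD) → ℝ)
    (hF : ∀ l, F l ≠ 0 → ∀ b, d.blkF (l b) = b) :
    ∑ l, F l = ∑ s, ∑ y, F (cfg d s y) := by
  rw [← Fintype.sum_prod_type' fun s y => F (cfg d s y)]
  symm
  refine Fintype.sum_of_injective _ (cfg_inj d) _ _ (fun l hl => ?_) fun _ => rfl
  by_contra h
  obtain ⟨s, y, rfl⟩ := cfg_surj d (hF l h)
  exact hl ⟨(s, y), rfl⟩

theorem amp_fin (d : CD) (ψ : (Fin (d.nq + 1) → Fin d.nD) → ℝ) (s : Fin d.dC)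
    (y : Fin d.nq → Bool) : amp d ψ s y = ψ (cfg d s y) := by
  simp [amp]

theorem nsqT_eq {d : CD} {ψ : (Fin (d.nq + 1) → Fin d.nD) → ℝ} (hψ : IdPat d.blkF ψ) :
    nsqT ψ = ∑ s ∈ range d.dC, ns (amp d ψ s) := by
  rw [nsqT, sum_cfg d _ fun l hl => hψ l fun h => hl (by simp [h]), sum_range]
  simp only [ns, amp_fin]

theorem exists_amp (d : CD) (A : ℕ → RV d.nq) :
    ∃ ψ : (Fin (d.nq + 1) → Fin d.nD) → ℝ, IdPat d.blkF ψ ∧ ∀ s < d.dC, amp d ψ s = A s := by
  refine ⟨Function.extend (fun p : Fin d.dC × (Fin d.nq → Bool) => cfg d p.1 p.2)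
    (fun p => A p.1 p.2) 0, fun l hl b => ?_, fun s hs => funext fun y => ?_⟩
  · by_cases h : ∃ p : Fin d.dC × (Fin d.nq → Bool), cfg d p.1 p.2 = l
    · obtain ⟨p, rfl⟩ := h
      exact blkF_cfg d _ _ b
    · exact absurd (Function.extend_apply' _ _ _ h) hl
  · rw [amp, dif_pos hs]
    exact (cfg_inj d).extend_apply _ _ (⟨s, hs⟩, y)

/-! ### Two-body terms -/

theorem prod_two {ι L : Type} [Fintype ι] [DecidableEq ι] [DecidableEq L] {i j : ι} (h : i ≠ j)
    (A A' : L → L → ℝ) (l l' : ι → L) :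
    ∏ k, two i j A A' k (l k) (l' k) = A (l i) (l' i) * A' (l j) (l' j) *
      if ∀ k, k ≠ i → k ≠ j → l k = l' k then 1 else 0 := by
  rw [← mul_prod_erase _ _ (mem_univ i), ← mul_prod_erase _ _ (mem_erase.2 ⟨h.symm, mem_univ j⟩),
    ← mul_assoc]
  congr 1
  · simp [two, h.symm]
  · rw [prod_congr rfl (g := fun k => if l k = l' k then (1 : ℝ) else 0), prod_boole]
    · simp only [mem_erase, mem_univ, and_true, and_imp]
      exact if_congr ⟨fun H k a b => H k b a, fun H k a b => H k b a⟩ rfl rfl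
    · intro k hk
      simp only [mem_erase] at hk
      simp [two, hk.1, hk.2.1, idm]

/-- one term of the form `HF` -/
def HT {ι L : Type} [Fintype ι] [DecidableEq ι] [Fintype L] [DecidableEq L] (u w : L → ℝ)
    (c : (ι → L) → ℝ) : ℝ :=
  ∑ i, ∑ j ∈ univ.erase i, tens (two i j (outer u) (outer w)) c c

theorem HT_div {ι L : Type} [Fintype ι] [DecidableEq ι] [Fintype L] [DecidableEq L] (u w : L → ℝ)
    (a : ℝ) (c : (ι → L) → ℝ) :
    HT (fun k => u k / a) (fun k => w k / a) c = HT u w c / (a ^ 2) ^ 2 := by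
  simp only [HT, sum_div, tens]
  refine sum_congr rfl fun i _ => sum_congr rfl fun j hj => sum_congr rfl fun l _ =>
    sum_congr rfl fun l' _ => ?_
  rw [prod_two (ne_of_mem_erase hj).symm, prod_two (ne_of_mem_erase hj).symm]
  simp only [outer]
  ring

theorem tens_two_zero {B D : Type} [Fintype B] [DecidableEq B] [Fintype D] [DecidableEq D]
    {blk : D → B} {ψ : (B → D) → ℝ} (hψ : IdPat blk ψ) {u w : D → ℝ} {β β' : B}
    (hu : ∀ k, u k ≠ 0 → blk k = β) (hw : ∀ k, w k ≠ 0 → blk k = β') {i j : B} (hij : i ≠ j)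
    (h : i ≠ β ∨ j ≠ β') : tens (two i j (outer u) (outer w)) ψ ψ = 0 := by
  refine sum_eq_zero fun l _ => sum_eq_zero fun l' _ => ?_
  rw [prod_two hij]
  by_cases h0 : ψ l = 0
  · simp [h0]
  rcases h with h | h
  · have : u (l i) = 0 := by
      by_contra hc
      exact h ((hψ l h0 i).symm.trans (hu _ hc))
    simp [outer, this]
  · have : w (l j) = 0 := by
      by_contra hc
      exact h ((hψ l h0 j).symm.trans (hw _ hc))
    simp [outer, this]

theorem HT_same {B D : Type} [Fintype B] [DecidableEq B] [Fintype D] [DecidableEq D]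
    {blk : D → B} {ψ : (B → D) → ℝ} (hψ : IdPat blk ψ) {u w : D → ℝ} {β : B}
    (hu : ∀ k, u k ≠ 0 → blk k = β) (hw : ∀ k, w k ≠ 0 → blk k = β) : HT u w ψ = 0 := by
  refine sum_eq_zero fun i _ => sum_eq_zero fun j hj => ?_
  have hij := (ne_of_mem_erase hj).symm
  refine tens_two_zero hψ hu hw hij ?_
  by_contra hc
  push Not at hc
  exact hij (hc.1.trans hc.2.symm)

theorem HT_diff {B D : Type} [Fintype B] [DecidableEq B] [Fintype D] [DecidableEq D]
    {blk : D → B} {ψ : (B → D) → ℝ} (hψ : IdPat blk ψ) {u w : D → ℝ} {β β' : B}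
    (hu : ∀ k, u k ≠ 0 → blk k = β) (hw : ∀ k, w k ≠ 0 → blk k = β') (hβ : β ≠ β') :
    HT u w ψ = tens (two β β' (outer u) (outer w)) ψ ψ := by
  rw [HT, sum_eq_single β, sum_eq_single β']
  · intro j hj hj'
    exact tens_two_zero hψ hu hw (ne_of_mem_erase hj).symm (Or.inr hj')
  · intro h
    exact absurd (mem_erase.2 ⟨hβ.symm, mem_univ _⟩) h
  · intro i _ hi
    exact sum_eq_zero fun j hj => tens_two_zero hψ hu hw (ne_of_mem_erase hj).symm (Or.inl hi)
  · intro h
    exact absurd (mem_univ _) h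

theorem sum_agree {n : ℕ} (q : Fin n) (y : Fin n → Bool) (G : (Fin n → Bool) → ℝ) :
    ∑ y', (if ∀ q', q' ≠ q → y q' = y' q' then G y' else 0) =
      G (Function.update y q false) + G (Function.update y q true) := by
  have hne : Function.update y q false ≠ Function.update y q true := fun h => by
    simpa using congrFun h q
  rw [← sum_filter, ← sum_pair hne]
  refine sum_congr ?_ fun _ _ => rfl
  ext y'
  simp only [mem_filter, mem_univ, true_and, mem_insert, mem_singleton]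
  constructor
  · intro h
    have h1 : y' = Function.update y q (y' q) := by
      funext q'
      by_cases hq : q' = q
      · subst hq; simp
      · rw [Function.update_of_ne hq, h q' hq]
    cases hy : y' q
    · left; rw [h1, hy]
    · right; rw [h1, hy]
  · rintro (rfl | rfl) q' hq <;> rw [Function.update_of_ne hq]

theorem tens_clock {d : CD} {ψ : (Fin (d.nq + 1) → Fin d.nD) → ℝ} (hψ : IdPat d.blkF ψ)
    (u w : ℕ → ℝ) (q : Fin d.nq) :
    tens (two 0 q.succ (outer fun k : Fin d.nD => u k) (outer fun k : Fin d.nD => w k)) ψ ψ =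
      qf q (w (d.qi q 0)) (w (d.qi q 1)) fun y => ∑ s ∈ range d.dC, u s * amp d ψ s y := by
  set Φ : RV d.nq := fun y => ∑ s ∈ range d.dC, u s * amp d ψ s y with hΦ
  have hΦ' : ∀ y, Φ y = ∑ s : Fin d.dC, u s * ψ (cfg d s y) := fun y => by
    simp only [hΦ, sum_range, amp_fin]
  have hag : ∀ (s s' : Fin d.dC) (y y' : Fin d.nq → Bool),
      (∀ k, k ≠ 0 → k ≠ q.succ → cfg d s y k = cfg d s' y' k) ↔ ∀ q', q' ≠ q → y q' = y' q' := by
    intro s s' y y'
    constructor
    · intro h q' hq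
      have h1 := congrArg Fin.val (h q'.succ (Fin.succ_ne_zero _) fun e => hq (Fin.succ_injective _ e))
      rw [cfg_succ, cfg_succ] at h1
      unfold CD.qi at h1
      revert h1
      cases y q' <;> cases y' q' <;> simp
    · intro h k
      refine Fin.cases (fun h0 => absurd rfl h0) (fun q' _ hq => Fin.ext ?_) k
      rw [cfg_succ, cfg_succ, h q' fun e => hq (by rw [e])]
  have h1 : tens (two 0 q.succ (outer fun k : Fin d.nD => u k) (outer fun k : Fin d.nD => w k)) ψ ψ =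
      ∑ y, ∑ y', if ∀ q', q' ≠ q → y q' = y' q' then
        Φ y * w (d.qi q (y q).toNat) * (w (d.qi q (y' q).toNat) * Φ y') else 0 := by
    rw [tens, sum_cfg d _ fun l hl => hψ l fun h => hl (by simp [h]), sum_comm]
    refine sum_congr rfl fun y _ => ?_
    have h2 : ∀ s : Fin d.dC, ∑ l', ψ (cfg d s y) * ψ l' * ∏ k, two 0 q.succ
        (outer fun k : Fin d.nD => u k) (outer fun k : Fin d.nD => w k) k (cfg d s y k) (l' k) =
        ∑ y', ∑ s' : Fin d.dC, if ∀ q', q' ≠ q → y q' = y' q' then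
          u s * ψ (cfg d s y) * w (d.qi q (y q).toNat) *
            (w (d.qi q (y' q).toNat) * (u s' * ψ (cfg d s' y'))) else 0 := by
      intro s
      rw [sum_cfg d _ fun l hl => hψ l fun h => hl (by simp [h]), sum_comm]
      refine sum_congr rfl fun y' _ => sum_congr rfl fun s' _ => ?_
      rw [prod_two (Fin.succ_ne_zero q).symm]
      simp only [hag, outer, cfg_zero, cfg_succ]
      split_ifs
      · ring
      · simp
    simp only [h2]
    rw [sum_comm]
    refine sum_congr rfl fun y' _ => ?_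
    split_ifs
    · simp only [hΦ', ← mul_sum, ← sum_mul]
    · simp
  rw [h1]
  simp only [sum_agree, Function.update_self]
  rw [sum_pairs q, qf]
  refine sum_congr rfl fun y _ => ?_
  split_ifs
  · simp only [Function.update_self, Function.update_idem, Bool.toNat_false, Bool.toNat_true]
    ring
  · rfl

/-- the term of a pair of sparse vectors -/
def HS (d : CD) (ψ : (Fin (d.nq + 1) → Fin d.nD) → ℝ) (c : SV × SV) : ℝ :=
  HT (fun k : Fin d.nD => (c.1.val k : ℝ)) (fun k : Fin d.nD => (c.2.val k : ℝ)) ψ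

theorem supp_of_oneBlk {d : CD} {v : SV} (h : OneBlk d v) {β : Fin (d.nq + 1)}
    (hβ : d.blk v.1 = β) (k : Fin d.nD) (hk : ((v.val k : ℤ) : ℝ) ≠ 0) : d.blkF k = β := by
  refine Fin.ext ?_
  rw [blkF_val, blk_of_val h (by exact_mod_cast hk), hβ]

theorem HS_zero_right {d : CD} (ψ : (Fin (d.nq + 1) → Fin d.nD) → ℝ) (v : SV) :
    HS d ψ (v, SV.zero) = 0 := by
  unfold HS HT tens
  refine sum_eq_zero fun i _ => sum_eq_zero fun j hj => sum_eq_zero fun l _ =>
    sum_eq_zero fun l' _ => ?_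
  rw [prod_two (ne_of_mem_erase hj).symm]
  simp [outer, val_zero]

theorem HS_zero_left {d : CD} (ψ : (Fin (d.nq + 1) → Fin d.nD) → ℝ) (v : SV) :
    HS d ψ (SV.zero, v) = 0 := by
  unfold HS HT tens
  refine sum_eq_zero fun i _ => sum_eq_zero fun j hj => sum_eq_zero fun l _ =>
    sum_eq_zero fun l' _ => ?_
  rw [prod_two (ne_of_mem_erase hj).symm]
  simp [outer, val_zero]

theorem HF_base (d : CD) (ψ : (Fin (d.nq + 1) → Fin d.nD) → ℝ) :
    HF d.UF d.WF ψ = (d.base.map (HS d ψ)).sum / (d.nu : ℝ) ^ 2 := by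
  have h := sum_terms d (HS d ψ)
  simp only [HS_zero_left, HS_zero_right, List.map_const', List.sum_replicate, smul_zero, mul_zero,
    sum_const_zero, add_zero] at h
  rw [← h, sum_div, HF, nu_cast]
  refine sum_congr rfl fun e _ => ?_
  rw [HS, ← HT_div]
  have h1 : d.UF e = _ := funext (UF_eq d e)
  have h2 : d.WF e = _ := funext (WF_eq d e)
  rw [h1, h2]
  rfl

theorem HS_same {d : CD} {ψ : (Fin (d.nq + 1) → Fin d.nD) → ℝ} (hψ : IdPat d.blkF ψ)
    {i j : ℕ} (β : Fin (d.nq + 1)) (hi : d.blk i = β) (hj : d.blk j = β) (a b : ℤ) :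
    HS d ψ (SV.one i a, SV.one j b) = 0 :=
  HT_same hψ (supp_of_oneBlk (oneBlk_one d i a) hi) (supp_of_oneBlk (oneBlk_one d j b) hj)

theorem HS_clock {d : CD} {ψ : (Fin (d.nq + 1) → Fin d.nD) → ℝ} (hψ : IdPat d.blkF ψ)
    {s s' : ℕ} (hs : s < d.dC) (hs' : s' < d.dC) (a b : ℤ) {v : SV} {q : ℕ} (hq : q < d.nq)
    (hv : OneBlk d v) (hb : d.blk v.1 = q + 1) :
    HS d ψ ((s, a, s', b), v) = qf (fq d q) (v.val (d.qi q 0)) (v.val (d.qi q 1))
      ((a : ℝ) • amp d ψ s + (b : ℝ) • amp d ψ s') := by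
  have hb' : d.blk v.1 = ((fq d q).succ : Fin (d.nq + 1)) := by rw [hb, Fin.val_succ, fq_val hq]
  rw [HS, HT_diff hψ (supp_of_oneBlk (oneBlk_clock d hs hs' a b) (β := 0) (blk_clock d hs))
    (supp_of_oneBlk hv hb') (Fin.succ_ne_zero _).symm,
    tens_clock hψ (fun k => (SV.val (s, a, s', b) k : ℝ)) (fun k => (v.val k : ℝ)), fq_val hq]
  congr 1
  funext y
  simp only [val_mk, Int.cast_add, Int.cast_ite, Int.cast_zero, add_mul, sum_add_distrib, ite_mul,
    zero_mul, sum_ite_eq', mem_range, hs, hs', if_true, Pi.add_apply, Pi.smul_apply, smul_eq_mul]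

theorem qi_ne (d : CD) (q : ℕ) : d.qi q 0 ≠ d.qi q 1 := by unfold CD.qi; omega

theorem HS_proj {d : CD} {ψ : (Fin (d.nq + 1) → Fin d.nD) → ℝ} (hψ : IdPat d.blkF ψ)
    {s s' : ℕ} (hs : s < d.dC) (hs' : s' < d.dC) (a b : ℤ) {q : ℕ} (hq : q < d.nq) (β : Bool) :
    HS d ψ ((s, a, s', b), SV.one (d.qi q β.toNat) 1) =
      ns (proj (fq d q) β ((a : ℝ) • amp d ψ s + (b : ℝ) • amp d ψ s')) := by
  rw [HS_clock hψ hs hs' a b hq (oneBlk_one d (d.qi q β.toNat) 1) (blk_qi d q (Bool.toNat_lt β))]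
  cases β
  · simp [val_one, (qi_ne d q).symm, qf_one_zero]
  · simp [val_one, qi_ne d q, qf_zero_one]

theorem proj_smul {n : ℕ} (q : Fin n) (b : Bool) (a : ℝ) (Φ : RV n) :
    proj q b (a • Φ) = a • proj q b Φ := by
  funext y; simp only [proj, Pi.smul_apply, smul_eq_mul]; split_ifs <;> simp

theorem HS_edge {d : CD} {ψ : (Fin (d.nq + 1) → Fin d.nD) → ℝ} (hψ : IdPat d.blkF ψ)
    {s s' : ℕ} (hs : s < d.dC) (hs' : s' < d.dC) {q : ℕ} (hq : q < d.nq) (β : Bool) :
    HS d ψ (d.edge s s', SV.one (d.qi q β.toNat) 1) =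
      (d.JJ : ℝ) ^ 2 * ns (proj (fq d q) β (amp d ψ s - amp d ψ s')) := by
  rw [CD.edge, HS_proj hψ hs hs' _ _ hq, ← ns_smul, ← proj_smul]
  congr 2
  funext y
  simp only [Pi.add_apply, Pi.smul_apply, Pi.sub_apply, smul_eq_mul]
  push_cast
  ring

theorem HS_one {d : CD} {ψ : (Fin (d.nq + 1) → Fin d.nD) → ℝ} (hψ : IdPat d.blkF ψ)
    {s : ℕ} (hs : s < d.dC) (a : ℤ) {q : ℕ} (hq : q < d.nq) (β : Bool) :
    HS d ψ (SV.one s a, SV.one (d.qi q β.toNat) 1) =
      (a : ℝ) ^ 2 * ns (proj (fq d q) β (amp d ψ s)) := by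
  rw [SV.one, HS_proj hψ hs hs _ _ hq, ← ns_smul, ← proj_smul]
  simp

theorem HS_gate {d : CD} {ψ : (Fin (d.nq + 1) → Fin d.nD) → ℝ} (hψ : IdPat d.blkF ψ)
    {s : ℕ} (hs : s + 1 < d.dC) {q : ℕ} (hq : q < d.nq) (g : ℕ) :
    ((d.gateEdge s q g).map (HS d ψ)).sum = (d.JJ : ℝ) ^ 2 *
      (gN d g * ns (app1 (fq d q) (gm d g) (amp d ψ s) - amp d ψ (s + 1))) := by
  have hs' : s < d.dC := by omega
  have hb : d.blk (d.qi q 0) = q + 1 := blk_qi d q (by omega)
  simp only [CD.gateEdge, List.map_cons, List.map_nil, List.sum_cons, List.sum_nil, add_zero]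
  rw [HS_clock hψ hs' hs _ _ hq (oneBlk_qi d q _ _) hb,
    HS_clock hψ hs' hs _ _ hq (oneBlk_qi d q _ _) hb, gN, gm,
    ← qf_gate _ (by have := one_le_gN d g; unfold gN at this; linarith) (gv_eps d g), mul_add,
    ← qf_smul, ← qf_smul]
  simp only [val_mk, qi_ne d q, (qi_ne d q).symm, if_true, if_false, add_zero, zero_add,
    Int.cast_neg]
  congr 2 <;> funext y <;>
    simp only [Pi.add_apply, Pi.smul_apply, Pi.sub_apply, smul_eq_mul] <;> push_cast <;> ring

theorem HS_step {d : CD} {ψ : (Fin (d.nq + 1) → Fin d.nD) → ℝ} (hψ : IdPat d.blkF ψ)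
    {t : ℕ} (ht : t < d.nT) {st : ℕ × ℕ × ℕ × ℕ} (h1 : st.1 < d.nq) (h2 : st.2.1 < d.nq) :
    ((d.stepTerms t st).map (HS d ψ)).sum = (d.JJ : ℝ) ^ 2 * stepE d (amp d ψ) t st := by
  have hd : 5 * t + 5 < d.dC := by unfold CD.dC; omega
  have e0 := fun s s' hs hs' => HS_edge hψ (s := s) (s' := s') hs hs' h1 false
  have e1 := fun s s' hs hs' => HS_edge hψ (s := s) (s' := s') hs hs' h1 true
  have o0 := fun s hs => HS_one hψ (s := s) hs d.JJ h1 false
  have o1 := fun s hs => HS_one hψ (s := s) hs d.JJ h1 true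
  simp only [Bool.toNat_false, Bool.toNat_true, Int.cast_natCast] at e0 e1 o0 o1
  simp only [CD.stepTerms, List.map_append, List.sum_append, List.map_cons, List.map_nil,
    List.sum_cons, List.sum_nil, add_zero]
  rw [HS_gate hψ (by omega) h2, HS_gate hψ (by omega) h2, e0 _ _ (by omega) (by omega),
    e0 _ _ (by omega) (by omega), e1 _ _ (by omega) (by omega), e1 _ _ (by omega) (by omega),
    o1 _ (by omega), o1 _ (by omega), o0 _ (by omega), o0 _ (by omega), stepE]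
  ring

theorem HF_eq {d : CD} (h : WFd d) {ψ : (Fin (d.nq + 1) → Fin d.nD) → ℝ} (hψ : IdPat d.blkF ψ) :
    HF d.UF d.WF ψ = Etot d (amp d ψ) / (d.nu : ℝ) ^ 2 := by
  rw [HF_base]
  congr 1
  have hd : 5 * d.nT < d.dC := Nat.lt_succ_self _
  have hout : d.out < d.nq := Nat.lt_succ_of_lt h.out_lt
  have ho := HS_one hψ hd 1 hout false
  simp only [Bool.toNat_false, Int.cast_one, one_pow, one_mul] at ho
  simp only [CD.base, List.map_append, List.sum_append, sum_flatMap, sum_range_list, List.map_map,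
    Function.comp_def, List.map_cons, List.map_nil, List.sum_cons, List.sum_nil, add_zero]
  rw [Etot, mul_sum, mul_sum, ho, sum_eq_zero (s := range d.dC), sum_eq_zero (s := range d.nq),
    add_zero, add_zero]
  · congr 2
    · exact sum_congr rfl fun t ht => HS_step hψ (mem_range.1 ht) (h.getD (mem_range.1 ht)).1
        (h.getD (mem_range.1 ht)).2.1
    · refine sum_congr rfl fun j hj => ?_
      have hj' : d.w + j < d.nq := by
        have := mem_range.1 hj
        unfold CD.nq CD.n CD.w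
        omega
      simpa using HS_one hψ (Nat.succ_pos _) d.JJ hj' true
  · intro q hq
    have hq' : q + 1 < d.nq + 1 := Nat.succ_lt_succ (mem_range.1 hq)
    have b0 : d.blk (d.qi q 0) = ((⟨q + 1, hq'⟩ : Fin (d.nq + 1)) : ℕ) := blk_qi d q (by omega)
    have b1 : d.blk (d.qi q 1) = ((⟨q + 1, hq'⟩ : Fin (d.nq + 1)) : ℕ) := blk_qi d q (by omega)
    rw [HS_same hψ _ b0 b0, HS_same hψ _ b0 b1, HS_same hψ _ b1 b0, HS_same hψ _ b1 b1]
    simp
  · intro s hs
    exact sum_eq_zero fun s' hs' =>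
      HS_same hψ 0 (blk_clock d (mem_range.1 hs)) (blk_clock d (mem_range.1 hs')) 1 1

theorem sum_clock (n : ℕ) (f : ℕ → ℝ) :
    ∑ s ∈ range (5 * n + 1), f s = ∑ t ∈ range n,
      (f (5 * t) + f (5 * t + 1) + f (5 * t + 2) + f (5 * t + 3) + f (5 * t + 4)) + f (5 * n) := by
  induction n with
  | zero => simp
  | succ n ih =>
    rw [show 5 * (n + 1) + 1 = 5 * n + 1 + 1 + 1 + 1 + 1 + 1 by ring, sum_range_succ, sum_range_succ,
      sum_range_succ, sum_range_succ, sum_range_succ, ih, sum_range_succ,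
      show 5 * (n + 1) = 5 * n + 1 + 1 + 1 + 1 + 1 by ring]
    ring

end

end Vale.Agent.P370Z.KIT
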