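import Vale.Agent.P370Z.Red

/-!
# P370, circuit Hamiltonian: real vectors of qubits, projectors, one-qubit gates, steps
-/

namespace Vale.Agent.P370Z.KIT

open Finset

noncomputable section

/-- Real vectors of `n` qubits. -/
abbrev RV (n : ℕ) : Type := (Fin n → Bool) → ℝ

variable {n : ℕ}

/-- squared length -/
def ns (Φ : RV n) : ℝ := ∑ y, Φ y ^ 2

/-- length -/
def nr (Φ : RV n) : ℝ := √(ns Φ)

/-- projector onto the value `b` of qubit `q` -/
def proj (q : Fin n) (b : Bool) (Φ : RV n) : RV n := fun y => if y q = b then Φ y else 0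

/-- the one-qubit gate with matrix `M` on qubit `q` -/
def app1 (q : Fin n) (M : Bool → Bool → ℝ) (Φ : RV n) : RV n := fun y =>
  M (y q) false * Φ (Function.update y q false) + M (y q) true * Φ (Function.update y q true)

/-- the gate `M0` or `M1` on qubit `tg`, according to the value of qubit `c` -/
def stepR (c tg : Fin n) (M0 M1 : Bool → Bool → ℝ) (Φ : RV n) : RV n :=
  app1 tg M0 (proj c false Φ) + app1 tg M1 (proj c true Φ)

/-- the columns of `M` are orthogonal, of squared length `K` -/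
def Orth (K : ℝ) (M : Bool → Bool → ℝ) : Prop :=
  M false false ^ 2 + M true false ^ 2 = K ∧ M false true ^ 2 + M true true ^ 2 = K ∧
    M false false * M false true + M true false * M true true = 0

theorem ns_nonneg (Φ : RV n) : 0 ≤ ns Φ := sum_nonneg fun _ _ => sq_nonneg _

theorem nr_nonneg (Φ : RV n) : 0 ≤ nr Φ := Real.sqrt_nonneg _

theorem nr_sq (Φ : RV n) : nr Φ ^ 2 = ns Φ := Real.sq_sqrt (ns_nonneg Φ)

@[simp] theorem ns_zero : ns (0 : RV n) = 0 := by simp [ns]

@[simp] theorem nr_zero : nr (0 : RV n) = 0 := by simp [nr]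

theorem ns_neg (Φ : RV n) : ns (-Φ) = ns Φ := by simp [ns]

theorem nr_neg (Φ : RV n) : nr (-Φ) = nr Φ := by simp [nr, ns_neg]

theorem ns_sub_comm (Φ Ψ : RV n) : ns (Φ - Ψ) = ns (Ψ - Φ) := by
  rw [← ns_neg, neg_sub]

theorem nr_sub_comm (Φ Ψ : RV n) : nr (Φ - Ψ) = nr (Ψ - Φ) := by
  rw [← nr_neg, neg_sub]

theorem ns_smul (a : ℝ) (Φ : RV n) : ns (a • Φ) = a ^ 2 * ns Φ := by
  simp [ns, mul_sum, mul_pow]

theorem nr_eq_norm (Φ : RV n) :
    nr Φ = ‖(WithLp.toLp 2 Φ : EuclideanSpace ℝ (Fin n → Bool))‖ := by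
  rw [EuclideanSpace.norm_eq]; simp [nr, ns]

theorem nr_add_le (Φ Ψ : RV n) : nr (Φ + Ψ) ≤ nr Φ + nr Ψ := by
  simp only [nr_eq_norm, WithLp.toLp_add]; exact norm_add_le _ _

theorem nr_sub_le (Φ Ψ : RV n) : nr (Φ - Ψ) ≤ nr Φ + nr Ψ := by
  rw [sub_eq_add_neg]; simpa [nr_neg] using nr_add_le Φ (-Ψ)

theorem nr_tri (Φ Ψ X : RV n) : nr (Φ - X) ≤ nr (Φ - Ψ) + nr (Ψ - X) := by
  simpa using nr_add_le (Φ - Ψ) (Ψ - X)

theorem nr_le_of_ns_le {Φ : RV n} {x : ℝ} (hx : 0 ≤ x) (h : ns Φ ≤ x ^ 2) : nr Φ ≤ x :=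
  Real.sqrt_le_iff.2 ⟨hx, h⟩

theorem nr_mono {Φ Ψ : RV n} (h : ns Φ ≤ ns Ψ) : nr Φ ≤ nr Ψ := Real.sqrt_le_sqrt h

theorem ns_le_of_nr_le {Φ : RV n} {x : ℝ} (h : nr Φ ≤ x) : ns Φ ≤ x ^ 2 := by
  rw [← nr_sq]; exact pow_le_pow_left₀ (nr_nonneg _) h 2

/-! ### Projectors -/

theorem proj_add (q : Fin n) (b : Bool) (Φ Ψ : RV n) :
    proj q b (Φ + Ψ) = proj q b Φ + proj q b Ψ := by
  funext y; simp only [proj, Pi.add_apply]; split_ifs <;> simp

theorem proj_sub (q : Fin n) (b : Bool) (Φ Ψ : RV n) :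
    proj q b (Φ - Ψ) = proj q b Φ - proj q b Ψ := by
  funext y; simp only [proj, Pi.sub_apply]; split_ifs <;> simp

@[simp] theorem proj_zero (q : Fin n) (b : Bool) : proj q b (0 : RV n) = 0 := by
  funext y; simp [proj]

theorem proj_proj (q : Fin n) (b : Bool) (Φ : RV n) : proj q b (proj q b Φ) = proj q b Φ := by
  funext y; simp only [proj]; split_ifs <;> simp

theorem proj_ft (q : Fin n) (Φ : RV n) : proj q false (proj q true Φ) = 0 := by
  funext y; simp only [proj]; cases y q <;> simp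

theorem proj_tf (q : Fin n) (Φ : RV n) : proj q true (proj q false Φ) = 0 := by
  funext y; simp only [proj]; cases y q <;> simp

theorem proj_add_proj (q : Fin n) (Φ : RV n) : proj q false Φ + proj q true Φ = Φ := by
  funext y; simp only [proj, Pi.add_apply]; cases y q <;> simp

/-- Pythagoras for the two values of a qubit, with different vectors -/
theorem ns_proj_add_proj (q : Fin n) (Φ Ψ : RV n) :
    ns (proj q false Φ + proj q true Ψ) = ns (proj q false Φ) + ns (proj q true Ψ) := by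
  simp only [ns, ← sum_add_distrib]
  refine sum_congr rfl fun y _ => ?_
  simp only [proj, Pi.add_apply]; cases y q <;> simp

theorem ns_proj (q : Fin n) (Φ : RV n) : ns (proj q false Φ) + ns (proj q true Φ) = ns Φ := by
  rw [← ns_proj_add_proj, proj_add_proj]

theorem ns_proj_le (q : Fin n) (b : Bool) (Φ : RV n) : ns (proj q b Φ) ≤ ns Φ := by
  have h := ns_proj q Φ
  have h0 := ns_nonneg (proj q false Φ)
  have h1 := ns_nonneg (proj q true Φ)
  cases b <;> linarith

theorem nr_proj_le (q : Fin n) (b : Bool) (Φ : RV n) : nr (proj q b Φ) ≤ nr Φ :=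
  nr_mono (ns_proj_le q b Φ)

/-! ### One-qubit gates -/

theorem app1_add (q : Fin n) (M : Bool → Bool → ℝ) (Φ Ψ : RV n) :
    app1 q M (Φ + Ψ) = app1 q M Φ + app1 q M Ψ := by
  funext y; simp only [app1, Pi.add_apply]; ring

theorem app1_sub (q : Fin n) (M : Bool → Bool → ℝ) (Φ Ψ : RV n) :
    app1 q M (Φ - Ψ) = app1 q M Φ - app1 q M Ψ := by
  funext y; simp only [app1, Pi.sub_apply]; ring

@[simp] theorem app1_zero (q : Fin n) (M : Bool → Bool → ℝ) : app1 q M (0 : RV n) = 0 := by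
  funext y; simp [app1]

theorem app1_sub_mat (q : Fin n) (M M' : Bool → Bool → ℝ) (Φ : RV n) :
    app1 q M Φ - app1 q M' Φ = app1 q (M - M') Φ := by
  funext y; simp only [app1, Pi.sub_apply]; ring

theorem proj_app1 {c tg : Fin n} (h : c ≠ tg) (b : Bool) (M : Bool → Bool → ℝ) (Φ : RV n) :
    proj c b (app1 tg M Φ) = app1 tg M (proj c b Φ) := by
  funext y
  simp only [proj, app1, Function.update_of_ne h]
  split_ifs <;> simp

/-- a sum over all basis states, arranged in pairs which differ at qubit `q` -/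
theorem sum_pairs (q : Fin n) (f : (Fin n → Bool) → ℝ) :
    ∑ y, f y = ∑ y, if y q = false then
      f (Function.update y q false) + f (Function.update y q true) else 0 := by
  have hinv : Function.Involutive fun y : Fin n → Bool => Function.update y q (!y q) := by
    intro y; simp
  have h1 : ∑ y, (if y q = true then f y else 0) =
      ∑ y, if y q = false then f (Function.update y q true) else 0 := by
    rw [← Equiv.sum_comp hinv.toPerm]
    refine sum_congr rfl fun y _ => ?_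
    simp only [Function.Involutive.coe_toPerm, Function.update_self]
    cases h : y q <;> simp
  have h0 : ∑ y, (if y q = false then f y else 0) =
      ∑ y, if y q = false then f (Function.update y q false) else 0 := by
    refine sum_congr rfl fun y _ => ?_
    split_ifs with h
    · rw [← h, Function.update_eq_self]
    · rfl
  calc ∑ y, f y = ∑ y, ((if y q = false then f y else 0) + if y q = true then f y else 0) := by
        refine sum_congr rfl fun y _ => ?_
        cases y q <;> simp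
    _ = _ := by
        rw [sum_add_distrib, h0, h1, ← sum_add_distrib]
        refine sum_congr rfl fun y _ => ?_
        split_ifs <;> simp

theorem ns_app1 (q : Fin n) {K : ℝ} {M : Bool → Bool → ℝ} (h : Orth K M) (Φ : RV n) :
    ns (app1 q M Φ) = K * ns Φ := by
  obtain ⟨h1, h2, h3⟩ := h
  rw [ns, ns, sum_pairs q, sum_pairs q fun y => Φ y ^ 2, mul_sum]
  refine sum_congr rfl fun y _ => ?_
  split_ifs with h
  · simp only [app1, Function.update_self, Function.update_idem]
    set a := Φ (Function.update y q false)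
    set b := Φ (Function.update y q true)
    linear_combination a ^ 2 * h1 + b ^ 2 * h2 + 2 * a * b * h3
  · simp

/-! ### Controlled steps -/

theorem stepR_add (c tg : Fin n) (M0 M1 : Bool → Bool → ℝ) (Φ Ψ : RV n) :
    stepR c tg M0 M1 (Φ + Ψ) = stepR c tg M0 M1 Φ + stepR c tg M0 M1 Ψ := by
  simp only [stepR, proj_add, app1_add]; abel

theorem stepR_sub (c tg : Fin n) (M0 M1 : Bool → Bool → ℝ) (Φ Ψ : RV n) :
    stepR c tg M0 M1 (Φ - Ψ) = stepR c tg M0 M1 Φ - stepR c tg M0 M1 Ψ := by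
  simp only [stepR, proj_sub, app1_sub]; abel

theorem ns_stepR' {c tg : Fin n} (h : c ≠ tg) {K0 K1 : ℝ} {M0 M1 : Bool → Bool → ℝ}
    (h0 : Orth K0 M0) (h1 : Orth K1 M1) (Φ : RV n) :
    ns (stepR c tg M0 M1 Φ) = K0 * ns (proj c false Φ) + K1 * ns (proj c true Φ) := by
  rw [stepR, ← proj_app1 h, ← proj_app1 h, ns_proj_add_proj, proj_app1 h, proj_app1 h,
    ns_app1 _ h0, ns_app1 _ h1]

theorem ns_stepR {c tg : Fin n} (h : c ≠ tg) {M0 M1 : Bool → Bool → ℝ}
    (h0 : Orth 1 M0) (h1 : Orth 1 M1) (Φ : RV n) : ns (stepR c tg M0 M1 Φ) = ns Φ := by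
  rw [ns_stepR' h h0 h1, one_mul, one_mul, ns_proj]

theorem stepR_sub_mat (c tg : Fin n) (M0 M1 M0' M1' : Bool → Bool → ℝ) (Φ : RV n) :
    stepR c tg M0 M1 Φ - stepR c tg M0' M1' Φ = stepR c tg (M0 - M0') (M1 - M1') Φ := by
  simp only [stepR, ← app1_sub_mat]; abel

theorem stepR_apply {c tg : Fin n} (h : c ≠ tg) (M0 M1 : Bool → Bool → ℝ) (Φ : RV n)
    (y : Fin n → Bool) :
    stepR c tg M0 M1 Φ y = if y c then app1 tg M1 Φ y else app1 tg M0 Φ y := by
  rw [stepR, ← proj_app1 h, ← proj_app1 h]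
  simp only [proj, Pi.add_apply]
  cases y c <;> simp

/-! ### The form of a rank-one operator on one qubit -/

/-- `|⟨(w0, w1)|_q Φ|²` -/
def qf (q : Fin n) (w0 w1 : ℝ) (Φ : RV n) : ℝ :=
  ∑ y, if y q = false then
    (w0 * Φ (Function.update y q false) + w1 * Φ (Function.update y q true)) ^ 2 else 0

theorem qf_nonneg (q : Fin n) (w0 w1 : ℝ) (Φ : RV n) : 0 ≤ qf q w0 w1 Φ :=
  sum_nonneg fun _ _ => by split_ifs <;> positivity

theorem qf_one_zero (q : Fin n) (Φ : RV n) : qf q 1 0 Φ = ns (proj q false Φ) := by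
  rw [ns, sum_pairs q, qf]
  refine sum_congr rfl fun y _ => ?_
  simp [proj]

theorem qf_zero_one (q : Fin n) (Φ : RV n) : qf q 0 1 Φ = ns (proj q true Φ) := by
  rw [ns, sum_pairs q, qf]
  refine sum_congr rfl fun y _ => ?_
  simp [proj]

theorem qf_smul (q : Fin n) (w0 w1 a : ℝ) (Φ : RV n) :
    qf q w0 w1 (a • Φ) = a ^ 2 * qf q w0 w1 Φ := by
  simp only [qf, mul_sum]
  refine sum_congr rfl fun y _ => ?_
  split_ifs
  · simp only [Pi.smul_apply, smul_eq_mul]; ring
  · simp

/-- the symmetric matrix with eigenvector (α, β) for the eigenvalue `1` and (β, -α) for the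
eigenvalue `ε` -/
def refl2 (α β ε : ℝ) : Bool → Bool → ℝ
  | false, false => (α ^ 2 + ε * β ^ 2) / (α ^ 2 + β ^ 2)
  | true, true => (β ^ 2 + ε * α ^ 2) / (α ^ 2 + β ^ 2)
  | _, _ => α * β * (1 - ε) / (α ^ 2 + β ^ 2)

theorem orth_refl2 {α β ε : ℝ} (h : α ^ 2 + β ^ 2 ≠ 0) (hε : ε ^ 2 = 1) :
    Orth 1 (refl2 α β ε) := by
  refine ⟨?_, ?_, ?_⟩ <;> simp only [refl2] <;> field_simp
  · linear_combination (β ^ 4 + α ^ 2 * β ^ 2) * hε
  · linear_combination (α ^ 4 + α ^ 2 * β ^ 2) * hε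
  · linear_combination (-(α * β * (α ^ 2 + β ^ 2))) * hε

/-- the two terms of an edge of the clock which carries a gate -/
theorem qf_gate (q : Fin n) {α β ε : ℝ} (h : α ^ 2 + β ^ 2 ≠ 0) (hε : ε ^ 2 = 1) (Φ Ψ : RV n) :
    qf q α β (Φ - Ψ) + qf q β (-α) (Φ - ε • Ψ) =
      (α ^ 2 + β ^ 2) * ns (app1 q (refl2 α β ε) Φ - Ψ) := by
  rw [ns, sum_pairs q, qf, qf, ← sum_add_distrib, mul_sum]
  refine sum_congr rfl fun y _ => ?_
  split_ifs with hy
  · simp only [app1, Pi.sub_apply, Pi.smul_apply, smul_eq_mul, Function.update_self,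
      Function.update_idem, refl2]
    set a := Φ (Function.update y q false)
    set b := Φ (Function.update y q true)
    set a' := Ψ (Function.update y q false)
    set b' := Ψ (Function.update y q true)
    field_simp
    linear_combination ((α ^ 2 + β ^ 2) * ((β * a' - α * b') ^ 2 - (β * a - α * b) ^ 2)) * hε
  · simp

end

end Vale.Agent.P370Z.KIT
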